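import Mathlib.Analysis.CStarAlgebra.Basic
import Mathlib.Analysis.Calculus.ContDiff.Basic
import Mathlib.Analysis.Calculus.ContDiff.RCLike
import Mathlib.Analysis.Calculus.Deriv.Add
import Mathlib.Analysis.Calculus.Deriv.Inv
import Mathlib.Analysis.Calculus.Deriv.Mul
import Mathlib.Analysis.Calculus.Deriv.Pow
import Mathlib.Analysis.Calculus.Deriv.Star
import Mathlib.Analysis.Calculus.MeanValue
import Mathlib.Analysis.Complex.Basic
import Mathlib.Analysis.Complex.RealDeriv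
import Mathlib.Analysis.Normed.Algebra.Basic
import Mathlib.Analysis.Normed.Module.Basic
import Mathlib.Analysis.ODE.ExistUnique
import Mathlib.Analysis.SpecialFunctions.Pow.Real
import Mathlib.Analysis.SpecialFunctions.Sqrt
import Mathlib.Analysis.Calculus.ContDiff.Operations
import Mathlib.Analysis.Calculus.Deriv.Basic
import Mathlib.Analysis.Calculus.FDeriv.Mul
import Mathlib.Analysis.Calculus.FDeriv.Pow
import Mathlib.Analysis.Normed.Group.Tannery
import Mathlib.Analysis.Normed.Lp.lpSpace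
import Mathlib.Analysis.Normed.Ring.Lemmas
import Mathlib.Analysis.PSeries
import Mathlib.Analysis.SpecialFunctions.Exp
import Mathlib.Analysis.SpecialFunctions.Integrals.Basic
import Mathlib.MeasureTheory.Constructions.Pi
import Mathlib.MeasureTheory.Constructions.Polish.Basic
import Mathlib.MeasureTheory.Integral.Bochner.Set
import Mathlib.MeasureTheory.Integral.DominatedConvergence
import Mathlib.MeasureTheory.Integral.IntervalIntegral.FundThmCalculus
import Mathlib.MeasureTheory.Integral.Lebesgue.Countable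
import Mathlib.MeasureTheory.Integral.Pi
import Mathlib.MeasureTheory.Measure.Lebesgue.Complex
import Mathlib.Probability.Distributions.Gaussian.Real
import Mathlib.Probability.Independence.Basic
import Mathlib.Topology.Algebra.InfiniteSum.ENNReal
import Mathlib.Probability.Moments.SubGaussian
import Vale.Agent.P139.A.Defs

set_option linter.all false

section

section

open Set Metric Filter Topology
open scoped NNReal

namespace Vale.Agent.P139.A

variable {X : Type*} [NormedAddCommGroup X] [NormedSpace ℝ X]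

/-- Picard-Lindelof with the information that the solution stays in the ball. -/
theorem picard_in_ball [CompleteSpace X] {f : ℝ → X → X} {tmin tmax : ℝ} {t₀ : Icc tmin tmax}
    {x₀ : X} {a L K : ℝ≥0} (hf : IsPicardLindelof f t₀ x₀ a 0 L K) :
    ∃ α : ℝ → X, α t₀ = x₀ ∧
      ∀ t ∈ Icc tmin tmax, HasDerivWithinAt α (f t (α t)) (Icc tmin tmax) t ∧
        α t ∈ closedBall x₀ a := by
  have hx : x₀ ∈ closedBall x₀ ((0 : ℝ≥0) : ℝ) := mem_closedBall_self le_rfl
  obtain ⟨α, hα⟩ := ODE.FunSpace.exists_isFixedPt_next hf hx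
  refine ⟨α.compProj, by rw [ODE.FunSpace.compProj_val, ← hα, ODE.FunSpace.next_apply₀],
    fun t ht ↦ ⟨?_, ?_⟩⟩
  · apply ODE.hasDerivWithinAt_picard_Icc t₀.2 hf.continuousOn_uncurry
      α.continuous_compProj.continuousOn (fun _ ht' ↦ α.compProj_mem_closedBall hf.mul_max_le)
      x₀ ht |>.congr_of_mem _ ht
    intro t' ht'
    nth_rw 1 [← hα]
    rw [ODE.FunSpace.compProj_of_mem ht', ODE.FunSpace.next_apply]
  · exact α.compProj_mem_closedBall hf.mul_max_le

/-- A `C²` map vanishing to second order at `0` is quadratically Lipschitz near `0`. -/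
theorem quad_lipschitz {N : X → X} (hN : ContDiffAt ℝ 2 N 0) (hd : fderiv ℝ N 0 = 0) :
    ∃ C > 0, ∃ δ > 0, ∀ R ≤ δ, ∀ x ∈ closedBall (0 : X) R, ∀ y ∈ closedBall (0 : X) R,
      ‖N x - N y‖ ≤ C * R * ‖x - y‖ := by
  have h1 : ContDiffAt ℝ 1 (fderiv ℝ N) 0 := by
    apply hN.fderiv_right
    norm_num
  obtain ⟨K, s, hs, hl⟩ := h1.exists_lipschitzOnWith
  have h2 : ∀ᶠ x in 𝓝 (0 : X), DifferentiableAt ℝ N x := by
    have := hN.eventually (by norm_num)
    filter_upwards [this] with x hx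
    exact hx.differentiableAt (by norm_num)
  obtain ⟨δ, hδ, hball⟩ := Metric.nhds_basis_closedBall.mem_iff.1 (Filter.inter_mem hs h2)
  refine ⟨K + 1, by (clear * -; positivity), δ, hδ, fun R hR x hx y hy => ?_⟩
  have hR0 : 0 ≤ R := by
    have := mem_closedBall_zero_iff.1 hx
    exact (norm_nonneg x).trans this
  have hsub : closedBall (0 : X) R ⊆ closedBall 0 δ := closedBall_subset_closedBall hR
  refine (convex_closedBall (0 : X) R).norm_image_sub_le_of_norm_fderiv_le (𝕜 := ℝ)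
    (fun z hz => (hball (hsub hz)).2) (fun z hz => ?_) hy hx
  have h3 := hl.norm_sub_le (hball (hsub hz)).1 (mem_of_mem_nhds hs)
  rw [hd, sub_zero, sub_zero] at h3
  have hz' : ‖z‖ ≤ R := mem_closedBall_zero_iff.1 hz
  calc ‖fderiv ℝ N z‖ ≤ K * ‖z‖ := h3
    _ ≤ (K + 1) * R := by
      have : (0 : ℝ) ≤ K := K.2
      nlinarith [norm_nonneg z]


/-- A strongly continuous uniformly bounded family is jointly continuous. -/
theorem joint_continuous (S : ℝ → X →L[ℝ] X) {M : ℝ} (hM : 0 < M)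
    (hS : ∀ t, ‖S t‖ ≤ M) (hSc : ∀ x, Continuous fun t => S t x) :
    Continuous fun p : ℝ × X => S p.1 p.2 := by
  rw [continuous_iff_continuousAt]
  rintro ⟨t₀, x₀⟩
  rw [ContinuousAt, tendsto_iff_norm_sub_tendsto_zero]
  have h1 : Tendsto (fun p : ℝ × X => M * ‖p.2 - x₀‖ + ‖S p.1 x₀ - S t₀ x₀‖) (𝓝 (t₀, x₀)) (𝓝 0) := by
    have ha : Tendsto (fun p : ℝ × X => M * ‖p.2 - x₀‖) (𝓝 (t₀, x₀)) (𝓝 (M * ‖x₀ - x₀‖)) := by
      apply Continuous.tendsto'
      · (clear * -; fun_prop)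
      · rfl
    have hb : Tendsto (fun p : ℝ × X => ‖S p.1 x₀ - S t₀ x₀‖) (𝓝 (t₀, x₀))
        (𝓝 ‖S t₀ x₀ - S t₀ x₀‖) := by
      have : Continuous fun p : ℝ × X => ‖S p.1 x₀ - S t₀ x₀‖ :=
        (((hSc x₀).comp continuous_fst).sub continuous_const).norm
      exact this.tendsto' _ _ rfl
    simpa only [sub_self, norm_zero, mul_zero, add_zero] using ha.add hb
  refine squeeze_zero (fun _ => norm_nonneg _) (fun p => ?_) h1
  calc ‖S p.1 p.2 - S t₀ x₀‖ = ‖S p.1 (p.2 - x₀) + (S p.1 x₀ - S t₀ x₀)‖ := by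
        rw [map_sub]; abel_nf
    _ ≤ ‖S p.1 (p.2 - x₀)‖ + ‖S p.1 x₀ - S t₀ x₀‖ := norm_add_le _ _
    _ ≤ M * ‖p.2 - x₀‖ + ‖S p.1 x₀ - S t₀ x₀‖ := by
        gcongr
        exact ((S p.1).le_opNorm _).trans (by gcongr; exact hS _)

theorem continuousOn_apply (S : ℝ → X →L[ℝ] X) {M : ℝ} (hM : 0 < M)
    (hS : ∀ t, ‖S t‖ ≤ M) (hSc : ∀ x, Continuous fun t => S t x) {s : Set ℝ} {y : ℝ → X}
    (hy : ContinuousOn y s) : ContinuousOn (fun t => S t (y t)) s :=
  (joint_continuous S hM hS hSc).comp_continuousOn (continuousOn_id.prodMk hy)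

/-- Long-time existence near an equilibrium with bounded linear propagator `S` and a
quadratically small nonlinearity `N`. -/
theorem long_time [CompleteSpace X] (S : ℝ → X →L[ℝ] X) {M : ℝ} (hM : 1 ≤ M)
    (hS : ∀ t, ‖S t‖ ≤ M) (hSc : ∀ x, Continuous fun t => S t x)
    {N : X → X} (hN : ContDiffAt ℝ 2 N 0) (h0 : N 0 = 0) (hd : fderiv ℝ N 0 = 0)
    {U : Set X} (hU : U ∈ 𝓝 (0 : X)) :
    ∃ c > 0, ∃ δ > 0, ∀ x₀ : X, ‖x₀‖ ≤ δ → ∀ T : ℝ, 0 ≤ T → T * ‖x₀‖ ≤ c →
      ∃ y : ℝ → X, y 0 = x₀ ∧ ∀ t ∈ Icc 0 T,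
        HasDerivWithinAt y (S (-t) (N (S t (y t)))) (Icc 0 T) t ∧ ‖y t‖ ≤ 2 * ‖x₀‖ ∧
          S t (y t) ∈ U := by
  obtain ⟨C, hC, δ₁, hδ₁, hq⟩ := quad_lipschitz hN hd
  obtain ⟨δ₂, hδ₂, hU2⟩ := Metric.nhds_basis_closedBall.mem_iff.1 hU
  have hM0 : 0 < M := by linarith only [hM]
  refine ⟨1 / (4 * C * M ^ 3), by (clear * - hC hM; positivity), min δ₁ δ₂ / (2 * M), by positivity,
    fun x₀ hx₀ T hT hTx => ?_⟩
  set e := ‖x₀‖ with he
  have he0 : 0 ≤ e := norm_nonneg _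
  have hR : 2 * M * e ≤ min δ₁ δ₂ := by
    rw [le_div_iff₀ (by (clear * - hM; positivity))] at hx₀
    linarith only [hx₀]
  have hR1 : 2 * M * e ≤ δ₁ := hR.trans (min_le_left _ _)
  have hR2 : 2 * M * e ≤ δ₂ := hR.trans (min_le_right _ _)
  have hball : ∀ y ∈ closedBall x₀ e, ‖y‖ ≤ 2 * e := by
    intro y hy
    have := mem_closedBall_iff_norm.1 hy
    calc ‖y‖ = ‖(y - x₀) + x₀‖ := by abel_nf
      _ ≤ ‖y - x₀‖ + ‖x₀‖ := norm_add_le _ _
      _ ≤ 2 * e := by linarith only [this]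
  have hSy : ∀ t, ∀ y ∈ closedBall x₀ e, S t y ∈ closedBall (0 : X) (2 * M * e) := by
    intro t y hy
    rw [mem_closedBall_zero_iff]
    calc ‖S t y‖ ≤ ‖S t‖ * ‖y‖ := (S t).le_opNorm y
      _ ≤ M * (2 * e) := by gcongr; exacts [hS t, hball y hy]
      _ = 2 * M * e := by ring
  have hlip : ∀ t, ∀ y ∈ closedBall x₀ e, ∀ z ∈ closedBall x₀ e,
      ‖S (-t) (N (S t y)) - S (-t) (N (S t z))‖ ≤ M * (C * (2 * M * e) * (M * ‖y - z‖)) := by
    intro t y hy z hz
    rw [← map_sub]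
    calc ‖S (-t) (N (S t y) - N (S t z))‖ ≤ ‖S (-t)‖ * ‖N (S t y) - N (S t z)‖ :=
          (S (-t)).le_opNorm _
      _ ≤ M * (C * (2 * M * e) * (M * ‖y - z‖)) := by
          gcongr
          · exact hS _
          · refine (hq _ hR1 _ (hSy t y hy) _ (hSy t z hz)).trans ?_
            gcongr
            rw [← map_sub]
            exact ((S t).le_opNorm _).trans (by gcongr; exact hS t)
  have hNc : ContinuousOn N (closedBall 0 (2 * M * e)) := by
    have : LipschitzOnWith (NNReal.mk (C * (2 * M * e)) (by (clear * - hC hM; positivity))) N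
        (closedBall 0 (2 * M * e)) := by
      rw [lipschitzOnWith_iff_norm_sub_le]
      intro y hy z hz
      exact hq _ hR1 _ hy _ hz
    exact this.continuousOn
  have hPL : IsPicardLindelof (fun t y => S (-t) (N (S t y))) (tmin := 0) (tmax := T)
      ⟨0, le_rfl, hT⟩ x₀ (NNReal.mk e he0) 0
      (NNReal.mk (M * (C * (2 * M * e) * (2 * M * e))) (by (clear * - hM hC; positivity)))
      (NNReal.mk (M * (C * (2 * M * e) * M)) (by (clear * - hM hC; positivity))) := by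
    refine ⟨fun t _ => ?_, fun y hy => ?_, fun t _ y hy => ?_, ?_⟩
    · rw [lipschitzOnWith_iff_norm_sub_le]
      intro y hy z hz
      refine (hlip t y hy z hz).trans (le_of_eq ?_)
      rw [NNReal.coe_mk]
      ring
    · apply Continuous.continuousOn
      have h7 : Continuous fun t => N (S t y) :=
        hNc.comp_continuous (hSc y) (fun t => hSy t y hy)
      exact (joint_continuous S hM0 hS hSc).comp (continuous_neg.prodMk h7)
    · have h5 : N (S t y) = N (S t y) - N 0 := by rw [h0, sub_zero]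
      have h6 : ‖N (S t y)‖ ≤ C * (2 * M * e) * (2 * M * e) := by
        rw [h5]
        refine (hq _ hR1 _ (hSy t y hy) 0 (mem_closedBall_self (by (clear * - hM; positivity)))).trans ?_
        rw [sub_zero]
        gcongr
        exact mem_closedBall_zero_iff.1 (hSy t y hy)
      rw [NNReal.coe_mk]
      refine ((S (-t)).le_opNorm _).trans ?_
      gcongr
      exact hS _
    · rw [NNReal.coe_mk, NNReal.coe_mk, NNReal.coe_zero]
      simp only [sub_zero, sub_self]
      rw [max_eq_left hT]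
      rw [le_div_iff₀ (by positivity)] at hTx
      calc M * (C * (2 * M * e) * (2 * M * e)) * T = (T * e * (4 * C * M ^ 3)) * e := by ring
        _ ≤ 1 * e := by (clear * - hTx; gcongr)
        _ = e := one_mul e
  obtain ⟨y, hy0, hy⟩ := picard_in_ball hPL
  refine ⟨y, hy0, fun t ht => ⟨(hy t ht).1, hball _ (hy t ht).2, hU2 ?_⟩⟩
  exact closedBall_subset_closedBall hR2 (hSy t _ (hy t ht).2)

end Vale.Agent.P139.A
end
end

section

section

open scoped ComplexConjugate NNReal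

namespace Vale.Agent.P139

section Ring

variable {W : Type*} [NormedCommRing W] [NormOneClass W]

theorem pow_rem (c s : W) (l : ℕ) :
    ‖(c + s) ^ (l + 2) - c ^ (l + 2) - ((l : W) + 2) * c ^ (l + 1) * s‖
      ≤ ((l : ℝ) + 2) ^ 2 * (‖c‖ + ‖s‖) ^ l * ‖s‖ ^ 2 := by
  induction l with
  | zero =>
    have : (c + s) ^ (0 + 2) - c ^ (0 + 2) - (((0 : ℕ) : W) + 2) * c ^ (0 + 1) * s = s ^ 2 := by
      push_cast; ring
    rw [this]
    have h1 := norm_pow_le s 2
    have h2 : (0 : ℝ) ≤ ‖s‖ ^ 2 := by (clear * -; positivity)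
    push_cast
    linarith
  | succ l ih =>
    have e : (c + s) ^ (l + 1 + 2) - c ^ (l + 1 + 2)
        - (((l + 1 : ℕ) : W) + 2) * c ^ (l + 1 + 1) * s
        = (c + s) * ((c + s) ^ (l + 2) - c ^ (l + 2) - ((l : W) + 2) * c ^ (l + 1) * s)
          + ((l : W) + 2) * c ^ (l + 1) * s ^ 2 := by
      push_cast; ring
    rw [e]
    have hcast : ‖((l : W) + 2)‖ ≤ (l : ℝ) + 2 := by
      have h := norm_add_le (l : W) 2
      have h1 : ‖(l : W)‖ ≤ (l : ℝ) := by
        have := Nat.norm_cast_le (α := W) l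
        simpa only [ge_iff_le, norm_one, mul_one] using this
      have h2 : ‖(2 : W)‖ ≤ 2 := by
        have := Nat.norm_cast_le (α := W) 2
        simpa only [ge_iff_le, Nat.cast_ofNat, norm_one, mul_one] using this
      linarith only [h, h1, h2]
    have hK : ‖c + s‖ ≤ ‖c‖ + ‖s‖ := norm_add_le _ _
    have hcK : ‖c‖ ≤ ‖c‖ + ‖s‖ := by linarith only [norm_nonneg s]
    have hK0 : 0 ≤ ‖c‖ + ‖s‖ := by positivity
    calc ‖(c + s) * ((c + s) ^ (l + 2) - c ^ (l + 2) - ((l : W) + 2) * c ^ (l + 1) * s)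
          + ((l : W) + 2) * c ^ (l + 1) * s ^ 2‖
        ≤ ‖c + s‖ * ‖(c + s) ^ (l + 2) - c ^ (l + 2) - ((l : W) + 2) * c ^ (l + 1) * s‖
          + ‖((l : W) + 2)‖ * ‖c‖ ^ (l + 1) * ‖s‖ ^ 2 := by
          refine (norm_add_le _ _).trans (add_le_add (norm_mul_le _ _) ?_)
          refine (norm_mul_le _ _).trans ?_
          refine mul_le_mul ((norm_mul_le _ _).trans ?_) (norm_pow_le _ _) (norm_nonneg _)
            (by (clear * -; positivity))
          exact mul_le_mul_of_nonneg_left (norm_pow_le _ _) (norm_nonneg _)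
      _ ≤ (‖c‖ + ‖s‖) * (((l : ℝ) + 2) ^ 2 * (‖c‖ + ‖s‖) ^ l * ‖s‖ ^ 2)
          + ((l : ℝ) + 2) * (‖c‖ + ‖s‖) ^ (l + 1) * ‖s‖ ^ 2 := by
          gcongr
      _ = (((l : ℝ) + 2) ^ 2 + ((l : ℝ) + 2)) * (‖c‖ + ‖s‖) ^ (l + 1) * ‖s‖ ^ 2 := by ring
      _ ≤ (((l + 1 : ℕ) : ℝ) + 2) ^ 2 * (‖c‖ + ‖s‖) ^ (l + 1) * ‖s‖ ^ 2 := by
          have : ((l : ℝ) + 2) ^ 2 + ((l : ℝ) + 2) ≤ (((l + 1 : ℕ) : ℝ) + 2) ^ 2 := by
            push_cast
            linarith
          gcongr

end Ring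

section Star

variable {W : Type*} [NormedCommRing W] [NormOneClass W] [NormedAlgebra ℂ W] [StarRing W]
  [NormedStarGroup W] [StarModule ℂ W]

/-- The nonlinearity `(u u^*)^m u`. -/
def nl (m : ℕ) (u : W) : W := (u * star u) ^ m * u

/-- The quadratic remainder of the nonlinearity around the constant `b`. -/
noncomputable def rem (m : ℕ) (b : ℂ) (w : W) : W :=
  nl m (algebraMap ℂ W b + w)
    - (algebraMap ℂ W ((b * conj b) ^ m * b)
      + (m + 1 : ℂ) • ((b * conj b) ^ m • w)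
      + (m : ℂ) • (((b * conj b) ^ (m - 1) * b ^ 2) • star w))

omit [NormOneClass W] [NormedStarGroup W] in
theorem rem_eq (m : ℕ) (b : ℂ) (w : W) :
    rem m b w =
      (m : W) * (algebraMap ℂ W b * star (algebraMap ℂ W b)) ^ (m - 1) * algebraMap ℂ W b
          * (w * star w)
        + (m : W) * (algebraMap ℂ W b * star (algebraMap ℂ W b)) ^ (m - 1)
          * (algebraMap ℂ W b * star w + star (algebraMap ℂ W b) * w + w * star w) * w
        + ((algebraMap ℂ W b * star (algebraMap ℂ W b)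
              + (algebraMap ℂ W b * star w + star (algebraMap ℂ W b) * w + w * star w)) ^ m
            - (algebraMap ℂ W b * star (algebraMap ℂ W b)) ^ m
            - (m : W) * (algebraMap ℂ W b * star (algebraMap ℂ W b)) ^ (m - 1)
              * (algebraMap ℂ W b * star w + star (algebraMap ℂ W b) * w + w * star w))
          * (algebraMap ℂ W b + w) := by
  have hs : star (algebraMap ℂ W b) = algebraMap ℂ W (conj b) := by
    rw [← algebraMap_star_comm]; rfl
  unfold rem nl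
  simp only [Algebra.smul_def, map_mul, map_pow, map_add, map_natCast, map_one, star_add, hs]
  set B := algebraMap ℂ W b
  set B' := algebraMap ℂ W (conj b)
  have e1 : (B + w) * (B' + star w) = B * B' + (B * star w + B' * w + w * star w) := by ring
  rw [e1]
  rcases m with _ | m
  · simp only [pow_zero, one_mul, Nat.cast_zero, zero_add, zero_tsub, zero_mul, add_zero, sub_self, mul_one]
  · simp only [Nat.add_sub_cancel, pow_succ (B * B') m]
    push_cast
    ring

theorem rem_bound (m : ℕ) (b : ℂ) (w : W) :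
    ‖rem m b w‖ ≤ 7 * (m : ℝ) ^ 2 * (‖b‖ + ‖w‖) ^ (2 * m - 1) * ‖w‖ ^ 2 := by
  rw [rem_eq]
  set B := algebraMap ℂ W b with hB
  set s := B * star w + star B * w + w * star w with hs
  have hBn : ‖B‖ = ‖b‖ := by rw [hB, norm_algebraMap']
  have hBs : ‖star B‖ = ‖b‖ := by rw [norm_star, hBn]
  set K := ‖b‖ + ‖w‖ with hK
  have hK0 : 0 ≤ K := by (clear * -; positivity)
  have hbK : ‖b‖ ≤ K := by linarith only [norm_nonneg w]
  have hwK : ‖w‖ ≤ K := by linarith only [norm_nonneg b]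
  have hc : ‖B * star B‖ ≤ ‖b‖ ^ 2 := by
    refine (norm_mul_le _ _).trans ?_
    rw [hBn, hBs, sq]
  have hs1 : ‖s‖ ≤ 2 * ‖b‖ * ‖w‖ + ‖w‖ ^ 2 := by
    have h1 : ‖B * star w‖ ≤ ‖b‖ * ‖w‖ := by
      refine (norm_mul_le _ _).trans ?_
      rw [hBn, norm_star]
    have h2 : ‖star B * w‖ ≤ ‖b‖ * ‖w‖ := by
      refine (norm_mul_le _ _).trans ?_
      rw [hBs]
    have h3 : ‖w * star w‖ ≤ ‖w‖ ^ 2 := by
      refine (norm_mul_le _ _).trans ?_
      rw [norm_star, sq]
    calc ‖s‖ ≤ ‖B * star w‖ + ‖star B * w‖ + ‖w * star w‖ := norm_add₃_le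
      _ ≤ _ := by linarith only [h1, h2, h3]
  have hs2 : ‖s‖ ≤ 2 * K * ‖w‖ := by
    refine hs1.trans ?_
    rw [hK]
    nlinarith only []
  have hcs : ‖B * star B‖ + ‖s‖ ≤ K ^ 2 := by
    rw [hK]
    linarith
  have hcK : ‖B * star B‖ ≤ K ^ 2 := by linarith [norm_nonneg s]
  have hww : ‖w * star w‖ ≤ ‖w‖ ^ 2 := by
    refine (norm_mul_le _ _).trans ?_
    rw [norm_star, sq]
  have hmc : ‖(m : W)‖ ≤ (m : ℝ) := by
    have := Nat.norm_cast_le (α := W) m
    simpa only [ge_iff_le, norm_one, mul_one] using this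
  have hBw : ‖B + w‖ ≤ K := by
    refine (norm_add_le _ _).trans ?_
    rw [hBn]
  rcases m with _ | m
  · simp only [Nat.cast_zero, zero_tsub, pow_zero, mul_one, zero_mul, add_zero, sub_self, norm_zero, CharP.cast_eq_zero, ne_eq, OfNat.ofNat_ne_zero, not_false_eq_true, zero_pow, mul_zero, Std.le_refl]
  · have e2 : 2 * (m + 1) - 1 = 2 * m + 1 := by omega
    rw [e2]
    simp only [Nat.add_sub_cancel]
    have hm0 : (0 : ℝ) ≤ (m : ℝ) := Nat.cast_nonneg m
    have t1 : ‖((m + 1 : ℕ) : W) * (B * star B) ^ m * B * (w * star w)‖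
        ≤ ((m : ℝ) + 1) * K ^ (2 * m + 1) * ‖w‖ ^ 2 := by
      calc ‖((m + 1 : ℕ) : W) * (B * star B) ^ m * B * (w * star w)‖
          ≤ ‖((m + 1 : ℕ) : W)‖ * ‖B * star B‖ ^ m * ‖B‖ * ‖w * star w‖ := by
            refine (norm_mul_le _ _).trans ?_
            refine mul_le_mul_of_nonneg_right ?_ (norm_nonneg _)
            refine (norm_mul_le _ _).trans ?_
            refine mul_le_mul_of_nonneg_right ?_ (norm_nonneg _)
            refine (norm_mul_le _ _).trans ?_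
            exact mul_le_mul_of_nonneg_left (norm_pow_le _ _) (norm_nonneg _)
        _ ≤ ((m : ℝ) + 1) * (K ^ 2) ^ m * K * ‖w‖ ^ 2 := by
            have h0 : ‖((m + 1 : ℕ) : W)‖ ≤ (m : ℝ) + 1 := by exact_mod_cast hmc
            rw [hBn]
            (clear * - h0 hcK hbK hww; gcongr)
        _ = ((m : ℝ) + 1) * K ^ (2 * m + 1) * ‖w‖ ^ 2 := by
            rw [← pow_mul]; ring
    have t2 : ‖((m + 1 : ℕ) : W) * (B * star B) ^ m * s * w‖
        ≤ 2 * ((m : ℝ) + 1) * K ^ (2 * m + 1) * ‖w‖ ^ 2 := by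
      calc ‖((m + 1 : ℕ) : W) * (B * star B) ^ m * s * w‖
          ≤ ‖((m + 1 : ℕ) : W)‖ * ‖B * star B‖ ^ m * ‖s‖ * ‖w‖ := by
            refine (norm_mul_le _ _).trans ?_
            refine mul_le_mul_of_nonneg_right ?_ (norm_nonneg _)
            refine (norm_mul_le _ _).trans ?_
            refine mul_le_mul_of_nonneg_right ?_ (norm_nonneg _)
            refine (norm_mul_le _ _).trans ?_
            exact mul_le_mul_of_nonneg_left (norm_pow_le _ _) (norm_nonneg _)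
        _ ≤ ((m : ℝ) + 1) * (K ^ 2) ^ m * (2 * K * ‖w‖) * ‖w‖ := by
            have h0 : ‖((m + 1 : ℕ) : W)‖ ≤ (m : ℝ) + 1 := by exact_mod_cast hmc
            (clear * - h0 hcK hs2; gcongr)
        _ = 2 * ((m : ℝ) + 1) * K ^ (2 * m + 1) * ‖w‖ ^ 2 := by
            rw [← pow_mul]; ring
    have t3 : ‖((B * star B + s) ^ (m + 1) - (B * star B) ^ (m + 1)
          - ((m + 1 : ℕ) : W) * (B * star B) ^ m * s) * (B + w)‖
        ≤ 4 * ((m : ℝ) + 1) ^ 2 * K ^ (2 * m + 1) * ‖w‖ ^ 2 := by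
      have t4 : ‖(B * star B + s) ^ (m + 1) - (B * star B) ^ (m + 1)
          - ((m + 1 : ℕ) : W) * (B * star B) ^ m * s‖
          ≤ 4 * ((m : ℝ) + 1) ^ 2 * K ^ (2 * m) * ‖w‖ ^ 2 := by
        rcases m with _ | l
        · simp only [zero_add, pow_one, add_sub_cancel_left, Nat.cast_one, pow_zero, mul_one, one_mul, sub_self, norm_zero]
          (clear * -; positivity)
        · have h := pow_rem (B * star B) s l
          have e3 : ((l + 1 + 1 : ℕ) : W) = (l : W) + 2 := by push_cast; ring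
          rw [e3]
          refine h.trans ?_
          calc ((l : ℝ) + 2) ^ 2 * (‖B * star B‖ + ‖s‖) ^ l * ‖s‖ ^ 2
              ≤ ((l : ℝ) + 2) ^ 2 * (K ^ 2) ^ l * (2 * K * ‖w‖) ^ 2 := by (clear * - hcs hs2; gcongr)
            _ = 4 * (((l + 1 : ℕ) : ℝ) + 1) ^ 2 * K ^ (2 * (l + 1)) * ‖w‖ ^ 2 := by
              rw [← pow_mul]; push_cast; ring
      calc _ ≤ ‖(B * star B + s) ^ (m + 1) - (B * star B) ^ (m + 1)
          - ((m + 1 : ℕ) : W) * (B * star B) ^ m * s‖ * ‖B + w‖ := norm_mul_le _ _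
        _ ≤ (4 * ((m : ℝ) + 1) ^ 2 * K ^ (2 * m) * ‖w‖ ^ 2) * K := by (clear * - t4 hBw; gcongr)
        _ = 4 * ((m : ℝ) + 1) ^ 2 * K ^ (2 * m + 1) * ‖w‖ ^ 2 := by ring
    calc _ ≤ ‖((m + 1 : ℕ) : W) * (B * star B) ^ m * B * (w * star w)‖
          + ‖((m + 1 : ℕ) : W) * (B * star B) ^ m * s * w‖
          + ‖((B * star B + s) ^ (m + 1) - (B * star B) ^ (m + 1)
          - ((m + 1 : ℕ) : W) * (B * star B) ^ m * s) * (B + w)‖ := norm_add₃_le
      _ ≤ ((m : ℝ) + 1) * K ^ (2 * m + 1) * ‖w‖ ^ 2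
          + 2 * ((m : ℝ) + 1) * K ^ (2 * m + 1) * ‖w‖ ^ 2
          + 4 * ((m : ℝ) + 1) ^ 2 * K ^ (2 * m + 1) * ‖w‖ ^ 2 := by
            (clear * - t1 t2 t3; gcongr)
      _ = (3 * ((m : ℝ) + 1) + 4 * ((m : ℝ) + 1) ^ 2) * K ^ (2 * m + 1) * ‖w‖ ^ 2 := by ring
      _ ≤ 7 * ((m + 1 : ℕ) : ℝ) ^ 2 * K ^ (2 * m + 1) * ‖w‖ ^ 2 := by
            have : 3 * ((m : ℝ) + 1) + 4 * ((m : ℝ) + 1) ^ 2 ≤ 7 * ((m + 1 : ℕ) : ℝ) ^ 2 := by
              push_cast
              nlinarith only []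
            (clear * - this; gcongr)

theorem nl_norm_le (m : ℕ) (u : W) : ‖nl m u‖ ≤ ‖u‖ ^ (2 * m + 1) := by
  unfold nl
  calc ‖(u * star u) ^ m * u‖ ≤ ‖(u * star u) ^ m‖ * ‖u‖ := norm_mul_le _ _
    _ ≤ ‖u * star u‖ ^ m * ‖u‖ := by gcongr; exact norm_pow_le _ _
    _ ≤ (‖u‖ * ‖u‖) ^ m * ‖u‖ := by
        gcongr
        refine (norm_mul_le _ _).trans ?_
        rw [norm_star]
    _ = ‖u‖ ^ (2 * m + 1) := by rw [← sq, ← pow_mul]; ring

theorem nl_lipschitz (m : ℕ) {r : ℝ} (hr : 0 ≤ r) :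
    ∃ K : ℝ≥0, LipschitzOnWith K (nl m : W → W) (Metric.closedBall 0 r) := by
  induction m with
  | zero =>
    refine ⟨1, LipschitzOnWith.of_dist_le_mul fun x _ y _ => ?_⟩
    simp only [nl, pow_zero, one_mul, NNReal.coe_one, Std.le_refl]
  | succ m ih =>
    obtain ⟨K, hK⟩ := ih
    refine ⟨⟨2 * r ^ (2 * m + 2) + r ^ 2 * K, by (clear * - hr; positivity)⟩,
      LipschitzOnWith.of_dist_le_mul fun x hx y hy => ?_⟩
    have hx' : ‖x‖ ≤ r := by simpa only [Metric.mem_closedBall, dist_zero_right] using hx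
    have hy' : ‖y‖ ≤ r := by simpa only [Metric.mem_closedBall, dist_zero_right] using hy
    have h1 := hK.dist_le_mul x hx y hy
    rw [dist_eq_norm, dist_eq_norm] at h1 ⊢
    have e : nl (m + 1) x - nl (m + 1) y
        = (x * star x - y * star y) * nl m x + (y * star y) * (nl m x - nl m y) := by
      unfold nl
      ring
    rw [e]
    have h2 : ‖x * star x - y * star y‖ ≤ 2 * r * ‖x - y‖ := by
      have e2 : x * star x - y * star y = x * star (x - y) + (x - y) * star y := by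
        rw [star_sub]; ring
      rw [e2]
      calc _ ≤ ‖x * star (x - y)‖ + ‖(x - y) * star y‖ := norm_add_le _ _
        _ ≤ ‖x‖ * ‖x - y‖ + ‖x - y‖ * ‖y‖ := by
            refine add_le_add ((norm_mul_le _ _).trans ?_) ((norm_mul_le _ _).trans ?_)
            · rw [norm_star]
            · rw [norm_star]
        _ ≤ r * ‖x - y‖ + ‖x - y‖ * r := by gcongr
        _ = _ := by ring
    have h3 : ‖nl m x‖ ≤ r ^ (2 * m + 1) :=
      (nl_norm_le m x).trans (by gcongr)
    have h4 : ‖y * star y‖ ≤ r ^ 2 := by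
      refine (norm_mul_le _ _).trans ?_
      rw [norm_star, ← sq]
      (clear * - hy'; gcongr)
    calc _ ≤ ‖(x * star x - y * star y) * nl m x‖ + ‖(y * star y) * (nl m x - nl m y)‖ :=
          norm_add_le _ _
      _ ≤ ‖x * star x - y * star y‖ * ‖nl m x‖ + ‖y * star y‖ * ‖nl m x - nl m y‖ :=
          add_le_add (norm_mul_le _ _) (norm_mul_le _ _)
      _ ≤ (2 * r * ‖x - y‖) * r ^ (2 * m + 1) + r ^ 2 * (K * ‖x - y‖) := by gcongr
      _ = (2 * r ^ (2 * m + 2) + r ^ 2 * K) * ‖x - y‖ := by ring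
      _ = _ := rfl

end Star

end Vale.Agent.P139
end
end

section

section

open scoped ComplexConjugate

namespace Vale.Agent.P139

/-- The complex valued Bogoliubov energy of a pair of modes. -/
noncomputable def enC (m : ℕ) (N : ℝ) (b x y : ℂ) : ℂ :=
  (x * conj x + y * conj y)
    + (m : ℂ) / N * (b * conj b) ^ (m - 1) * ((x * conj b + b * y) * (conj x * b + conj b * conj y))

/-- The real Bogoliubov energy of a pair of modes. -/
noncomputable def en (m : ℕ) (N : ℝ) (b x y : ℂ) : ℝ :=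
  ‖x‖ ^ 2 + ‖y‖ ^ 2 + (m : ℝ) / N * ‖b‖ ^ (2 * (m - 1)) * ‖x * conj b + b * y‖ ^ 2

theorem enC_eq (m : ℕ) (N : ℝ) (b x y : ℂ) : enC m N b x y = (en m N b x y : ℂ) := by
  have h : ∀ z : ℂ, z * conj z = ((‖z‖ ^ 2 : ℝ) : ℂ) := by
    intro z
    rw [Complex.mul_conj, Complex.normSq_eq_norm_sq]
  have h2 : (conj x * b + conj b * conj y) = conj (x * conj b + b * y) := by
    simp
  unfold enC en
  rw [h2, h, h, h, h]
  push_cast
  rw [← pow_mul]

/-- The perturbative part of the derivative of the energy. -/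
noncomputable def dEn (m : ℕ) (N : ℝ) (b x y db dx dy : ℂ) : ℂ :=
  (dx * conj x + x * conj dx + dy * conj y + y * conj dy)
    + (m : ℂ) / N * (((m - 1 : ℕ) : ℂ) * (b * conj b) ^ (m - 1 - 1) * (db * conj b + b * conj db)
        * ((x * conj b + b * y) * (conj x * b + conj b * conj y))
      + (b * conj b) ^ (m - 1) * ((dx * conj b + x * conj db + db * y + b * dy)
          * (conj x * b + conj b * conj y)
        + (x * conj b + b * y) * (conj dx * b + conj x * db + conj db * conj y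
          + conj b * conj dy)))

theorem hasDeriv_enC_gen (m : ℕ) (N : ℝ) {s : Set ℝ} {t : ℝ}
    {b x y : ℝ → ℂ} {b' x' y' : ℂ}
    (hb : HasDerivWithinAt b b' s t) (hx : HasDerivWithinAt x x' s t)
    (hy : HasDerivWithinAt y y' s t) :
    HasDerivWithinAt (fun τ => enC m N (b τ) (x τ) (y τ))
      (dEn m N (b t) (x t) (y t) b' x' y') s t := by
  have hbc : HasDerivWithinAt (fun τ => conj (b τ)) (conj b') s t := hb.star
  have hxc : HasDerivWithinAt (fun τ => conj (x τ)) (conj x') s t := hx.star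
  have hyc : HasDerivWithinAt (fun τ => conj (y τ)) (conj y') s t := hy.star
  have hr := HasDerivWithinAt.fun_mul hb hbc
  have hZ := HasDerivWithinAt.fun_add (HasDerivWithinAt.fun_mul hx hbc)
    (HasDerivWithinAt.fun_mul hb hy)
  have hZ' := HasDerivWithinAt.fun_add (HasDerivWithinAt.fun_mul hxc hb)
    (HasDerivWithinAt.fun_mul hbc hyc)
  have hrp := HasDerivWithinAt.fun_pow hr (m - 1)
  have h1 := HasDerivWithinAt.const_mul ((m : ℂ) / N) hrp
  have h := HasDerivWithinAt.fun_add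
    (HasDerivWithinAt.fun_add (HasDerivWithinAt.fun_mul hx hxc)
      (HasDerivWithinAt.fun_mul hy hyc))
    (HasDerivWithinAt.fun_mul h1 (HasDerivWithinAt.fun_mul hZ hZ'))
  refine HasDerivWithinAt.congr_deriv (f := fun τ => enC m N (b τ) (x τ) (y τ)) h ?_
  unfold dEn
  ring

theorem dEn_flow {m : ℕ} (hm : 1 ≤ m) {N : ℝ} (hN : N ≠ 0) (b x y q0 q1 q2 : ℂ) :
    dEn m N b x y (-Complex.I * ((b * conj b) ^ m * b + q0))
      (-Complex.I * ((N : ℂ) * x
      + ((m + 1 : ℂ) * (b * conj b) ^ m * x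
        + m * (b * conj b) ^ (m - 1) * b ^ 2 * y + q1)))
      (Complex.I * ((N : ℂ) * y
      + ((m + 1 : ℂ) * (b * conj b) ^ m * y
        + m * (b * conj b) ^ (m - 1) * conj b ^ 2 * x + q2)))
      = dEn m N b x y (-Complex.I * q0) (-Complex.I * q1) (Complex.I * q2) := by
  obtain ⟨l, rfl⟩ : ∃ l, m = l + 1 := ⟨m - 1, by omega⟩
  have hNc : (N : ℂ) ≠ 0 := by exact_mod_cast hN
  unfold dEn
  simp only [map_mul, map_add, map_neg, Complex.conj_I, map_pow, Complex.conj_ofReal,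
    map_natCast, map_one, Nat.add_sub_cancel, Complex.conj_conj]
  set B := conj b
  set X := conj x
  set Y := conj y
  set P := (b * B) ^ l with hP
  have hP1 : (b * B) ^ (l + 1) = P * (b * B) := by rw [pow_succ]
  rw [hP1]
  set R := (b * B) ^ (l - 1)
  push_cast
  field_simp
  ring

theorem dEn_bound {m : ℕ} (hm : 1 ≤ m) {N : ℝ} (hN : 1 ≤ N) (b x y db dx dy : ℂ) :
    ‖dEn m N b x y db dx dy‖
      ≤ 2 * (‖x‖ + ‖y‖) * (‖dx‖ + ‖dy‖) * (1 + m * ‖b‖ ^ (2 * m))
        + 2 * (m : ℝ) ^ 2 * ‖b‖ ^ (2 * m - 1) * (‖x‖ + ‖y‖) ^ 2 * ‖db‖ := by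
  obtain ⟨l, rfl⟩ : ∃ l, m = l + 1 := ⟨m - 1, by omega⟩
  set P := ‖b‖ with hP
  set σ := ‖x‖ + ‖y‖ with hσ
  have hP0 : 0 ≤ P := norm_nonneg _
  have hσ0 : 0 ≤ σ := by (clear * -; positivity)
  have nc : ∀ z : ℂ, ‖conj z‖ = ‖z‖ := fun z => RCLike.norm_conj z
  have hxσ : ‖x‖ ≤ σ := by linarith only [norm_nonneg y]
  have hyσ : ‖y‖ ≤ σ := by linarith only [norm_nonneg x]
  have hmN : ‖(((l + 1 : ℕ) : ℂ)) / N‖ ≤ ((l : ℝ) + 1) := by
    rw [norm_div, Complex.norm_natCast, Complex.norm_real, Real.norm_of_nonneg (by linarith only [hN])]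
    push_cast
    exact div_le_self (by (clear * -; positivity)) hN
  have hZ : ‖x * conj b + b * y‖ ≤ P * σ := by
    refine (norm_add_le _ _).trans ?_
    rw [norm_mul, norm_mul, nc, hσ]
    linarith only []
  have hZ' : ‖conj x * b + conj b * conj y‖ ≤ P * σ := by
    refine (norm_add_le _ _).trans ?_
    rw [norm_mul, norm_mul, nc, nc, nc, hσ]
    linarith only []
  have hdZ : ‖dx * conj b + x * conj db + db * y + b * dy‖
      ≤ P * (‖dx‖ + ‖dy‖) + σ * ‖db‖ := by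
    calc _ ≤ ‖dx * conj b‖ + ‖x * conj db‖ + ‖db * y‖ + ‖b * dy‖ := norm_add₄_le
      _ = P * (‖dx‖ + ‖dy‖) + σ * ‖db‖ := by
        rw [norm_mul, norm_mul, norm_mul, norm_mul, nc, nc, hσ]; ring
  have hdZ' : ‖conj dx * b + conj x * db + conj db * conj y + conj b * conj dy‖
      ≤ P * (‖dx‖ + ‖dy‖) + σ * ‖db‖ := by
    calc _ ≤ ‖conj dx * b‖ + ‖conj x * db‖ + ‖conj db * conj y‖ + ‖conj b * conj dy‖ :=
          norm_add₄_le
      _ = P * (‖dx‖ + ‖dy‖) + σ * ‖db‖ := by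
        rw [norm_mul, norm_mul, norm_mul, norm_mul, nc, nc, nc, nc, nc, nc, hσ]
        ring
  have hbb : ‖b * conj b‖ = P ^ 2 := by rw [norm_mul, nc]; ring
  have T1 : ‖dx * conj x + x * conj dx + dy * conj y + y * conj dy‖
      ≤ 2 * σ * (‖dx‖ + ‖dy‖) := by
    calc _ ≤ ‖dx * conj x‖ + ‖x * conj dx‖ + ‖dy * conj y‖ + ‖y * conj dy‖ := norm_add₄_le
      _ = 2 * ‖x‖ * ‖dx‖ + 2 * ‖y‖ * ‖dy‖ := by
        rw [norm_mul, norm_mul, norm_mul, norm_mul, nc, nc, nc, nc]; ring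
      _ ≤ 2 * σ * ‖dx‖ + 2 * σ * ‖dy‖ := by (clear * - hxσ hyσ; gcongr)
      _ = _ := by ring
  have T2 : ‖((l : ℕ) : ℂ) * (b * conj b) ^ (l - 1) * (db * conj b + b * conj db)
        * ((x * conj b + b * y) * (conj x * b + conj b * conj y))‖
      ≤ 2 * (l : ℝ) * P ^ (2 * l + 1) * σ ^ 2 * ‖db‖ := by
    have hd : ‖db * conj b + b * conj db‖ ≤ 2 * P * ‖db‖ := by
      refine (norm_add_le _ _).trans ?_
      rw [norm_mul, norm_mul, nc, nc]
      linarith only []
    rcases l with _ | l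
    · simp only [CharP.cast_eq_zero, zero_tsub, pow_zero, mul_one, zero_mul, norm_zero, mul_zero, zero_add, pow_one, Std.le_refl]
    · rw [norm_mul, norm_mul, norm_mul, norm_pow, hbb, Complex.norm_natCast, norm_mul]
      calc ((l + 1 : ℕ) : ℝ) * (P ^ 2) ^ (l + 1 - 1) * ‖db * conj b + b * conj db‖
            * (‖x * conj b + b * y‖ * ‖conj x * b + conj b * conj y‖)
          ≤ ((l + 1 : ℕ) : ℝ) * (P ^ 2) ^ (l + 1 - 1) * (2 * P * ‖db‖)
            * ((P * σ) * (P * σ)) := by (clear * - hd hZ hZ'; gcongr)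
        _ = 2 * ((l + 1 : ℕ) : ℝ) * P ^ (2 * (l + 1) + 1) * σ ^ 2 * ‖db‖ := by
          rw [Nat.add_sub_cancel, ← pow_mul]; ring
  have T3 : ‖(b * conj b) ^ l * ((dx * conj b + x * conj db + db * y + b * dy)
          * (conj x * b + conj b * conj y)
        + (x * conj b + b * y) * (conj dx * b + conj x * db + conj db * conj y
          + conj b * conj dy))‖
      ≤ P ^ (2 * l) * (2 * (P * (‖dx‖ + ‖dy‖) + σ * ‖db‖) * (P * σ)) := by
    rw [norm_mul, norm_pow, hbb, ← pow_mul]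
    refine mul_le_mul_of_nonneg_left ?_ (by (clear * -; positivity))
    refine (norm_add_le _ _).trans ?_
    rw [norm_mul, norm_mul]
    calc _ ≤ (P * (‖dx‖ + ‖dy‖) + σ * ‖db‖) * (P * σ)
          + (P * σ) * (P * (‖dx‖ + ‖dy‖) + σ * ‖db‖) := by (clear * - hdZ hZ' hZ hdZ'; gcongr)
      _ = _ := by ring
  have hl : ((l + 1 - 1 : ℕ) : ℂ) = ((l : ℕ) : ℂ) := by simp only [add_tsub_cancel_right]
  have e2 : 2 * (l + 1) - 1 = 2 * l + 1 := by (clear * - hm; omega)
  have e3 : 2 * (l + 1) = 2 * l + 2 := by ring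
  unfold dEn
  simp only [Nat.add_sub_cancel]
  rw [e2, e3]
  calc _ ≤ ‖dx * conj x + x * conj dx + dy * conj y + y * conj dy‖
        + ‖(((l + 1 : ℕ) : ℂ)) / N‖ * (‖((l : ℕ) : ℂ) * (b * conj b) ^ (l - 1)
          * (db * conj b + b * conj db)
          * ((x * conj b + b * y) * (conj x * b + conj b * conj y))‖
          + ‖(b * conj b) ^ l * ((dx * conj b + x * conj db + db * y + b * dy)
          * (conj x * b + conj b * conj y)
        + (x * conj b + b * y) * (conj dx * b + conj x * db + conj db * conj y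
          + conj b * conj dy))‖) := by
        refine (norm_add_le _ _).trans (add_le_add le_rfl ?_)
        rw [norm_mul]
        exact mul_le_mul_of_nonneg_left (norm_add_le _ _) (norm_nonneg _)
    _ ≤ 2 * σ * (‖dx‖ + ‖dy‖) + ((l : ℝ) + 1) * (2 * (l : ℝ) * P ^ (2 * l + 1) * σ ^ 2 * ‖db‖
          + P ^ (2 * l) * (2 * (P * (‖dx‖ + ‖dy‖) + σ * ‖db‖) * (P * σ))) := by
        (clear * - T1 hmN T2 T3; gcongr)
    _ = _ := by push_cast; ring

theorem en_lower (m : ℕ) {N : ℝ} (hN : 0 ≤ N) (b x y : ℂ) :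
    (‖x‖ + ‖y‖) ^ 2 / 2 ≤ en m N b x y := by
  unfold en
  have h1 : 0 ≤ (m : ℝ) / N * ‖b‖ ^ (2 * (m - 1)) * ‖x * conj b + b * y‖ ^ 2 := by positivity
  nlinarith [sq_nonneg (‖x‖ - ‖y‖)]

theorem en_upper {m : ℕ} (hm : 1 ≤ m) {N : ℝ} (hN : 1 ≤ N) (b x y : ℂ) :
    en m N b x y ≤ (1 + m * ‖b‖ ^ (2 * m)) * (‖x‖ + ‖y‖) ^ 2 := by
  obtain ⟨l, rfl⟩ : ∃ l, m = l + 1 := ⟨m - 1, by omega⟩
  unfold en
  have hZ : ‖x * conj b + b * y‖ ≤ ‖b‖ * (‖x‖ + ‖y‖) := by
    refine (norm_add_le _ _).trans ?_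
    rw [norm_mul, norm_mul, RCLike.norm_conj]
    linarith only []
  have h0 : (((l + 1 : ℕ) : ℝ)) / N ≤ ((l + 1 : ℕ) : ℝ) := div_le_self (by positivity) hN
  have h1 : ((l + 1 : ℕ) : ℝ) / N * ‖b‖ ^ (2 * (l + 1 - 1)) * ‖x * conj b + b * y‖ ^ 2
      ≤ ((l + 1 : ℕ) : ℝ) * ‖b‖ ^ (2 * (l + 1)) * (‖x‖ + ‖y‖) ^ 2 := by
    calc _ ≤ ((l + 1 : ℕ) : ℝ) * ‖b‖ ^ (2 * (l + 1 - 1)) * (‖b‖ * (‖x‖ + ‖y‖)) ^ 2 := by
          gcongr
      _ = _ := by rw [Nat.add_sub_cancel]; ring
  nlinarith only [h1, mul_nonneg (norm_nonneg x) (norm_nonneg y)]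

theorem sqrt_en_deriv {m : ℕ} (hm : 1 ≤ m) {N : ℝ} (hN : 1 ≤ N) {s : Set ℝ} {t : ℝ}
    {b x y : ℝ → ℂ} {q0 q1 q2 : ℂ} {δ : ℝ} (hδ : 0 < δ)
    (hb : HasDerivWithinAt b (-Complex.I * ((b t * conj (b t)) ^ m * b t + q0)) s t)
    (hx : HasDerivWithinAt x (-Complex.I * ((N : ℂ) * x t
      + ((m + 1 : ℂ) * (b t * conj (b t)) ^ m * x t
        + m * (b t * conj (b t)) ^ (m - 1) * b t ^ 2 * y t + q1))) s t)
    (hy : HasDerivWithinAt y (Complex.I * ((N : ℂ) * y t
      + ((m + 1 : ℂ) * (b t * conj (b t)) ^ m * y t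
        + m * (b t * conj (b t)) ^ (m - 1) * conj (b t) ^ 2 * x t + q2))) s t) :
    ∃ e' : ℝ, HasDerivWithinAt (fun τ => Real.sqrt (en m N (b τ) (x τ) (y τ) + δ)) e' s t ∧
      |e'| ≤ Real.sqrt 2 * ((‖q1‖ + ‖q2‖) * (1 + m * ‖b t‖ ^ (2 * m))
        + (m : ℝ) ^ 2 * ‖b t‖ ^ (2 * m - 1) * (‖x t‖ + ‖y t‖) * ‖q0‖) := by
  have h1 := hasDeriv_enC_gen m N hb hx hy
  rw [dEn_flow hm (by linarith only [hN] : N ≠ 0)] at h1
  set D := dEn m N (b t) (x t) (y t) (-Complex.I * q0) (-Complex.I * q1) (Complex.I * q2)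
    with hD
  have h2 : HasDerivWithinAt (fun τ => en m N (b τ) (x τ) (y τ)) D.re s t := by
    have h3 := (Complex.reCLM.hasFDerivAt).comp_hasDerivWithinAt t h1
    refine h3.congr_of_eventuallyEq ?_ ?_
    · filter_upwards with τ
      simp [enC_eq]
    · simp [enC_eq]
  have hpos : 0 < en m N (b t) (x t) (y t) + δ := by
    have := en_lower m (by linarith only [hN] : (0 : ℝ) ≤ N) (b t) (x t) (y t)
    have h4 : 0 ≤ (‖x t‖ + ‖y t‖) ^ 2 / 2 := by (clear * -; positivity)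
    linarith only [hδ, this, h4]
  have h5 := (h2.add_const δ).sqrt hpos.ne'
  refine ⟨_, h5, ?_⟩
  set σ := ‖x t‖ + ‖y t‖ with hσ
  have hσ0 : 0 ≤ σ := by (clear * -; positivity)
  have hs : σ / Real.sqrt 2 ≤ Real.sqrt (en m N (b t) (x t) (y t) + δ) := by
    apply Real.le_sqrt_of_sq_le
    rw [div_pow, Real.sq_sqrt (by norm_num)]
    have := en_lower m (by linarith only [hN] : (0 : ℝ) ≤ N) (b t) (x t) (y t)
    linarith only [hδ, this]
  have hsp : 0 < Real.sqrt (en m N (b t) (x t) (y t) + δ) := Real.sqrt_pos.mpr hpos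
  have hDn : |D.re| ≤ 2 * σ * (‖q1‖ + ‖q2‖) * (1 + m * ‖b t‖ ^ (2 * m))
        + 2 * (m : ℝ) ^ 2 * ‖b t‖ ^ (2 * m - 1) * σ ^ 2 * ‖q0‖ := by
    refine (Complex.abs_re_le_norm D).trans ?_
    have h6 := dEn_bound hm hN (b t) (x t) (y t) (-Complex.I * q0) (-Complex.I * q1)
      (Complex.I * q2)
    have n1 : ‖-Complex.I * q0‖ = ‖q0‖ := by simp
    have n2 : ‖-Complex.I * q1‖ = ‖q1‖ := by simp
    have n3 : ‖Complex.I * q2‖ = ‖q2‖ := by simp
    rw [n1, n2, n3] at h6
    exact h6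
  rw [abs_div, abs_of_pos (by (clear * - hpos; positivity) : 0 < 2 * Real.sqrt (en m N (b t) (x t) (y t) + δ)),
    div_le_iff₀ (by (clear * - hpos; positivity))]
  set A := (‖q1‖ + ‖q2‖) * (1 + m * ‖b t‖ ^ (2 * m))
        + (m : ℝ) ^ 2 * ‖b t‖ ^ (2 * m - 1) * σ * ‖q0‖ with hA
  have hA0 : 0 ≤ A := by (clear * - hm; positivity)
  have hDn' : |D.re| ≤ 2 * σ * A := by
    refine hDn.trans (le_of_eq ?_)
    rw [hA]; ring
  have h2pos : 0 < Real.sqrt 2 := by positivity
  have hσs : σ ≤ Real.sqrt 2 * Real.sqrt (en m N (b t) (x t) (y t) + δ) := by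
    rw [div_le_iff₀ h2pos] at hs
    linarith only [hs]
  calc |D.re| ≤ 2 * σ * A := hDn'
    _ ≤ 2 * (Real.sqrt 2 * Real.sqrt (en m N (b t) (x t) (y t) + δ)) * A := by (clear * - hσs hm; gcongr)
    _ = _ := by ring

end Vale.Agent.P139
end
end

section

section

open Set Metric
open scoped NNReal

namespace Vale.Agent.P139

/-- A Lipschitz cutoff, equal to `1` on `s ≤ 1` and to `0` on `s ≥ 2`. -/
noncomputable def cut (s : ℝ) : ℝ := max 0 (min 1 (2 - s))

theorem cut_nonneg (s : ℝ) : 0 ≤ cut s := le_max_left _ _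

theorem cut_le_one (s : ℝ) : cut s ≤ 1 := max_le zero_le_one (min_le_left _ _)

theorem cut_eq_one {s : ℝ} (h : s ≤ 1) : cut s = 1 := by
  unfold cut
  rw [min_eq_left (by linarith), max_eq_right zero_le_one]

theorem cut_eq_zero {s : ℝ} (h : 2 ≤ s) : cut s = 0 := by
  unfold cut
  rw [max_eq_left]
  exact (min_le_right _ _).trans (by linarith)

theorem cut_lip (s s' : ℝ) : |cut s - cut s'| ≤ |s - s'| := by
  unfold cut
  have h1 := abs_max_sub_max_le_abs (min 1 (2 - s)) (min 1 (2 - s')) 0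
  rw [max_comm 0, max_comm 0]
  refine h1.trans ?_
  have h2 := abs_min_sub_min_le_max 1 (2 - s) 1 (2 - s')
  refine h2.trans ?_
  simp only [sub_self, abs_zero]
  rw [max_eq_right (abs_nonneg _)]
  rw [show 2 - s - (2 - s') = -(s - s') by ring, abs_neg]

variable {E : Type*} [NormedAddCommGroup E] [NormedSpace ℝ E]

/-- The cut off vector field. -/
noncomputable def cutField (g : ℝ → E → E) (ρ : ℝ) (t : ℝ) (x : E) : E :=
  cut (‖x‖ / ρ) • g t x

theorem cutField_norm_le {g : ℝ → E → E} {ρ : ℝ} (hρ : 0 < ρ) {M : ℝ≥0} {t : ℝ}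
    (hM : ∀ x ∈ closedBall (0 : E) (2 * ρ), ‖g t x‖ ≤ M) (x : E) :
    ‖cutField g ρ t x‖ ≤ M := by
  unfold cutField
  by_cases hx : ‖x‖ ≤ 2 * ρ
  · rw [norm_smul, Real.norm_of_nonneg (cut_nonneg _)]
    calc cut (‖x‖ / ρ) * ‖g t x‖ ≤ 1 * M := by
          gcongr
          · exact cut_le_one _
          · exact hM x (by simpa only [mem_closedBall, dist_zero_right] using hx)
      _ = M := one_mul _
  · have h2 : 2 ≤ ‖x‖ / ρ := by
      rw [le_div_iff₀ hρ]; linarith only [hx]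
    rw [cut_eq_zero h2]
    simp only [zero_smul, norm_zero, NNReal.zero_le_coe]

theorem cutField_dist_le {g : ℝ → E → E} {ρ : ℝ} (hρ : 0 < ρ) {K M : ℝ≥0} {t : ℝ}
    (hLip : LipschitzOnWith K (g t) (closedBall (0 : E) (2 * ρ)))
    (hM : ∀ x ∈ closedBall (0 : E) (2 * ρ), ‖g t x‖ ≤ M) (x y : E) :
    ‖cutField g ρ t x - cutField g ρ t y‖ ≤ (K + M / ρ) * ‖x - y‖ := by
  wlog hxy : ‖x‖ ≤ ‖y‖ generalizing x y
  · rw [norm_sub_rev, norm_sub_rev x y]
    exact this y x (le_of_not_ge hxy)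
  have hcut : |cut (‖x‖ / ρ) - cut (‖y‖ / ρ)| ≤ ‖x - y‖ / ρ := by
    refine (cut_lip _ _).trans ?_
    rw [← sub_div, abs_div, abs_of_pos hρ]
    gcongr
    exact abs_norm_sub_norm_le x y
  have hK0 : (0 : ℝ) ≤ K := K.2
  have hM0 : (0 : ℝ) ≤ M := M.2
  by_cases hx : ‖x‖ ≤ 2 * ρ
  · have hxb : x ∈ closedBall (0 : E) (2 * ρ) := by simpa only [mem_closedBall, dist_zero_right] using hx
    by_cases hy : ‖y‖ ≤ 2 * ρ
    · have hyb : y ∈ closedBall (0 : E) (2 * ρ) := by simpa only [mem_closedBall, dist_zero_right] using hy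
      have e : cutField g ρ t x - cutField g ρ t y
          = (cut (‖x‖ / ρ) - cut (‖y‖ / ρ)) • g t x + cut (‖y‖ / ρ) • (g t x - g t y) := by
        unfold cutField
        rw [sub_smul, smul_sub]; abel
      rw [e]
      calc _ ≤ ‖(cut (‖x‖ / ρ) - cut (‖y‖ / ρ)) • g t x‖
            + ‖cut (‖y‖ / ρ) • (g t x - g t y)‖ := norm_add_le _ _
        _ = |cut (‖x‖ / ρ) - cut (‖y‖ / ρ)| * ‖g t x‖
            + cut (‖y‖ / ρ) * ‖g t x - g t y‖ := by
            rw [norm_smul, norm_smul, Real.norm_eq_abs, Real.norm_of_nonneg (cut_nonneg _)]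
        _ ≤ (‖x - y‖ / ρ) * M + 1 * (K * ‖x - y‖) := by
            gcongr
            · exact hM x hxb
            · exact cut_le_one _
            · have := hLip.dist_le_mul x hxb y hyb
              simpa only [ge_iff_le, dist_eq_norm] using this
        _ = (K + M / ρ) * ‖x - y‖ := by ring
    · have h2 : 2 ≤ ‖y‖ / ρ := by
        rw [le_div_iff₀ hρ]; linarith only [hy]
      have hc0 := cut_eq_zero h2
      have e : cutField g ρ t x - cutField g ρ t y
          = (cut (‖x‖ / ρ) - cut (‖y‖ / ρ)) • g t x := by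
        unfold cutField
        rw [hc0]; simp only [zero_smul, sub_zero]
      rw [e, norm_smul, Real.norm_eq_abs]
      calc _ ≤ (‖x - y‖ / ρ) * M := by
            gcongr
            exact hM x hxb
        _ ≤ (K + M / ρ) * ‖x - y‖ := by
            have : 0 ≤ K * ‖x - y‖ := by (clear * -; positivity)
            have e2 : (K + M / ρ) * ‖x - y‖ = K * ‖x - y‖ + ‖x - y‖ / ρ * M := by ring
            rw [e2]; linarith only [this]
  · have h2 : 2 ≤ ‖x‖ / ρ := by
      rw [le_div_iff₀ hρ]; linarith only [hx]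
    have h3 : 2 ≤ ‖y‖ / ρ := by
      rw [le_div_iff₀ hρ]; linarith only [hxy, hx]
    unfold cutField
    rw [cut_eq_zero h2, cut_eq_zero h3]
    simp only [zero_smul, sub_self, norm_zero]
    (clear * - hρ; positivity)

theorem exists_cutoff [CompleteSpace E] (g : ℝ → E → E) {ρ : ℝ} (hρ : 0 < ρ) (K M : ℝ≥0)
    {T : ℝ} (hT : 0 ≤ T)
    (hLip : ∀ t ∈ Icc 0 T, LipschitzOnWith K (g t) (closedBall (0 : E) (2 * ρ)))
    (hM : ∀ t ∈ Icc 0 T, ∀ x ∈ closedBall (0 : E) (2 * ρ), ‖g t x‖ ≤ M)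
    (hcont : ∀ x : E, ContinuousOn (fun t => g t x) (Icc 0 T)) (v0 : E) :
    ∃ v : ℝ → E, v 0 = v0 ∧
      ∀ t ∈ Icc 0 T, HasDerivWithinAt v (cutField g ρ t (v t)) (Icc 0 T) t := by
  have hpl : IsPicardLindelof (cutField g ρ) (tmin := 0) (tmax := T) ⟨0, le_rfl, hT⟩ v0
      (M * ⟨T, hT⟩) 0 M (K + M / ⟨ρ, hρ.le⟩) := by
    refine ⟨?_, ?_, ?_, ?_⟩
    · intro t ht
      refine LipschitzOnWith.of_dist_le_mul fun x _ y _ => ?_
      rw [dist_eq_norm, dist_eq_norm]
      exact cutField_dist_le hρ (hLip t ht) (hM t ht) x y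
    · intro x _
      unfold cutField
      exact (hcont x).const_smul _
    · intro t ht x _
      exact cutField_norm_le hρ (hM t ht) x
    · simp only [sub_zero, sub_self, NNReal.coe_mul, NNReal.coe_zero]
      rw [max_eq_left hT]
      rfl
  exact hpl.exists_eq_forall_mem_Icc_hasDerivWithinAt₀

end Vale.Agent.P139
end
end

section

section

namespace Vale.Agent.P139

/-- The bound on the quadratic remainder used in the bootstrap. -/
noncomputable def qb (m : ℕ) (R η : ℝ) : ℝ := 7 * (m : ℝ) ^ 2 * (R + η) ^ (2 * m - 1) * η ^ 2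

/-- The constant in the growth estimate. -/
noncomputable def Dc (m : ℕ) (R η : ℝ) : ℝ :=
  Real.sqrt 2 * (2 * qb m R η * (1 + m * R ^ (2 * m))
    + 2 * (m : ℝ) ^ 2 * R ^ (2 * m - 1) * η * qb m R η)

/-- The constant in the lifespan bound. -/
noncomputable def C2 (m : ℕ) : ℝ := 168 * (m : ℝ) ^ 4 * 4 ^ m

theorem C2_nonneg (m : ℕ) : 0 ≤ C2 m := by unfold C2; positivity

theorem qb_nonneg (m : ℕ) {R η : ℝ} (hR : 0 ≤ R + η) : 0 ≤ qb m R η := by
  unfold qb; positivity

theorem qb_le {m : ℕ} (hm : 1 ≤ m) {S η : ℝ} (hS : 1 ≤ S) (hη : 0 ≤ η) (hη1 : η ≤ 1) :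
    qb m S η ≤ 7 * (m : ℝ) ^ 2 * (4 ^ m / 2) * S ^ (2 * m - 1) * η ^ 2 := by
  have h1 : qb m S η ≤ 7 * (m : ℝ) ^ 2 * (2 * S) ^ (2 * m - 1) * η ^ 2 := by
    unfold qb
    have : S + η ≤ 2 * S := by linarith only [hS, hη1]
    gcongr
  refine h1.trans (le_of_eq ?_)
  have h2 : (2 * S) ^ (2 * m - 1) = (4 ^ m / 2) * S ^ (2 * m - 1) := by
    rw [mul_pow]
    congr 1
    obtain ⟨l, rfl⟩ : ∃ l, m = l + 1 := ⟨m - 1, by omega⟩
    have e1 : 2 * (l + 1) - 1 = 2 * l + 1 := by (clear * - hm; omega)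
    rw [e1, pow_succ, pow_mul, pow_succ]
    norm_num
    ring
  rw [h2]; ring

theorem Dc_le {m : ℕ} (hm : 1 ≤ m) {S η : ℝ} (hS : 1 ≤ S) (hη : 0 ≤ η) (hη1 : η ≤ 1) :
    Real.sqrt 2 * Dc m S η ≤ 12 * (m : ℝ) ^ 2 * S ^ (2 * m) * qb m S η := by
  have hq : 0 ≤ qb m S η := qb_nonneg m (by linarith only [hS, hη])
  have h2 : Real.sqrt 2 * Real.sqrt 2 = 2 := Real.mul_self_sqrt (by norm_num)
  have h3 : Real.sqrt 2 * Dc m S η = 4 * qb m S η *
      (1 + (m : ℝ) * S ^ (2 * m) + (m : ℝ) ^ 2 * S ^ (2 * m - 1) * η) := by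
    unfold Dc
    linear_combination (2 * qb m S η * (1 + (m : ℝ) * S ^ (2 * m))
      + 2 * (m : ℝ) ^ 2 * S ^ (2 * m - 1) * η * qb m S η) * h2
  rw [h3]
  have hM : (1 : ℝ) ≤ (m : ℝ) := by exact_mod_cast hm
  have h6 : (1 : ℝ) ≤ S ^ (2 * m) := one_le_pow₀ hS
  have h7 : (1 : ℝ) ≤ S ^ (2 * m - 1) := one_le_pow₀ hS
  have h8 : (1 : ℝ) ≤ (m : ℝ) ^ 2 := one_le_pow₀ hM
  have h9 : (m : ℝ) ≤ (m : ℝ) ^ 2 := by nlinarith only [hM]
  have h10 : (1 : ℝ) ≤ (m : ℝ) ^ 2 * S ^ (2 * m) := by nlinarith only [h8, h6]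
  have h11 : (m : ℝ) * S ^ (2 * m) ≤ (m : ℝ) ^ 2 * S ^ (2 * m) := by (clear * - h9 hS; gcongr)
  have h12 : (m : ℝ) ^ 2 * S ^ (2 * m - 1) * η ≤ (m : ℝ) ^ 2 * S ^ (2 * m) := by
    have h13 : S ^ (2 * m - 1) * η ≤ S ^ (2 * m) := by
      have h14 : S ^ (2 * m - 1) ≤ S ^ (2 * m) := pow_le_pow_right₀ hS (by (clear * - hm; omega))
      nlinarith only [hη1, hη, h14, h6]
    calc _ = (m : ℝ) ^ 2 * (S ^ (2 * m - 1) * η) := by ring
      _ ≤ _ := by (clear * - h13 hm; gcongr)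
  have h15 : (1 + (m : ℝ) * S ^ (2 * m) + (m : ℝ) ^ 2 * S ^ (2 * m - 1) * η)
      ≤ 3 * (m : ℝ) ^ 2 * S ^ (2 * m) := by linarith only [h10, h11, h12]
  calc _ ≤ 4 * qb m S η * (3 * (m : ℝ) ^ 2 * S ^ (2 * m)) := by (clear * - h15 hq; gcongr)
    _ = _ := by ring

theorem Dc_time {m : ℕ} (hm : 1 ≤ m) {S η t : ℝ} (hS : 1 ≤ S) (hη : 0 ≤ η) (hη1 : η ≤ 1)
    (ht : 0 ≤ t) (htη : t * (C2 m * S ^ (4 * m) * η) ≤ 1) :
    Real.sqrt 2 * Dc m S η * t ≤ η / 4 := by
  have hS0 : 0 ≤ S := by linarith only [hS]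
  calc Real.sqrt 2 * Dc m S η * t
      ≤ (12 * (m : ℝ) ^ 2 * S ^ (2 * m) * (7 * (m : ℝ) ^ 2
        * (4 ^ m / 2) * S ^ (2 * m - 1) * η ^ 2)) * t := by
        refine mul_le_mul_of_nonneg_right ((Dc_le hm hS hη hη1).trans ?_) ht
        exact mul_le_mul_of_nonneg_left (qb_le hm hS hη hη1) (by positivity)
    _ = (t * (C2 m * (S ^ (2 * m) * S ^ (2 * m - 1)) * η)) * (η / 4) := by
        unfold C2; ring
    _ ≤ (t * (C2 m * S ^ (4 * m) * η)) * (η / 4) := by
        have h13 : S ^ (2 * m) * S ^ (2 * m - 1) ≤ S ^ (4 * m) := by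
          rw [← pow_add]
          exact pow_le_pow_right₀ hS (by omega)
        have h14 := C2_nonneg m
        gcongr
    _ ≤ 1 * (η / 4) := by
        refine mul_le_mul_of_nonneg_right htη (by linarith only [hη])
    _ = _ := one_mul _

theorem q_time {m : ℕ} (hm : 1 ≤ m) {S η t : ℝ} (hS : 1 ≤ S) (hη : 0 ≤ η) (hη1 : η ≤ 1)
    (ht : 0 ≤ t) (htη : t * (C2 m * S ^ (4 * m) * η) ≤ 1) :
    2 * S * qb m S η * t ≤ 1 := by
  have hS0 : 0 ≤ S := by linarith only [hS]
  have hM : (1 : ℝ) ≤ (m : ℝ) := by exact_mod_cast hm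
  have h14 := C2_nonneg m
  calc 2 * S * qb m S η * t ≤ 2 * S * (7 * (m : ℝ) ^ 2
      * (4 ^ m / 2) * S ^ (2 * m - 1) * η ^ 2) * t := by
        refine mul_le_mul_of_nonneg_right ?_ ht
        exact mul_le_mul_of_nonneg_left (qb_le hm hS hη hη1) (by positivity)
    _ = (7 * (m : ℝ) ^ 2 * 4 ^ m) * (S * S ^ (2 * m - 1)) * (t * η) * η := by ring
    _ ≤ (C2 m) * S ^ (4 * m) * (t * η) * 1 := by
        have h24 : 7 * (m : ℝ) ^ 2 * 4 ^ m ≤ C2 m := by
          unfold C2
          have h8 : (m : ℝ) ^ 2 ≤ (m : ℝ) ^ 4 := pow_le_pow_right₀ hM (by norm_num)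
          have h9 : (0 : ℝ) ≤ (m : ℝ) ^ 4 := by positivity
          have : 7 * (m : ℝ) ^ 2 ≤ 168 * (m : ℝ) ^ 4 := by linarith only [h8, h9]
          gcongr
        have h25 : S * S ^ (2 * m - 1) ≤ S ^ (4 * m) := by
          rw [← pow_succ']
          exact pow_le_pow_right₀ hS (by omega)
        gcongr
    _ = t * (C2 m * S ^ (4 * m) * η) := by ring
    _ ≤ 1 := htη

theorem sqrt_bound {m : ℕ} {S ε η w : ℝ} (hS : 1 ≤ S) (hw0 : 0 ≤ w) (hw : w ≤ ε)
    (hη : η = 16 * (1 + m) * S ^ m * ε) :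
    Real.sqrt 2 * (2 * Real.sqrt (1 + (m : ℝ) * S ^ (2 * m)) * w) ≤ 3 / 16 * η := by
  have hS0 : 0 ≤ S := by linarith only [hS]
  have h17 : (1 : ℝ) ≤ S ^ m := one_le_pow₀ hS
  have hm0 : (0 : ℝ) ≤ m := Nat.cast_nonneg m
  have h15 : Real.sqrt (1 + (m : ℝ) * S ^ (2 * m)) ≤ (1 + (m : ℝ)) * S ^ m := by
    rw [Real.sqrt_le_left (by positivity)]
    have h16 : S ^ (2 * m) = (S ^ m) ^ 2 := by ring
    rw [h16]
    have h18 : (1 : ℝ) ≤ (S ^ m) ^ 2 := one_le_pow₀ h17
    nlinarith only [h18]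
  have h19 : Real.sqrt 2 ≤ 3 / 2 := by
    rw [Real.sqrt_le_left (by norm_num)]
    norm_num
  calc _ ≤ (3 / 2) * (2 * ((1 + (m : ℝ)) * S ^ m) * ε) := by
        have : 0 ≤ ε := hw0.trans hw
        gcongr
    _ = _ := by rw [hη]; ring

end Vale.Agent.P139
end
end

section

section

open Set Filter Topology MeasureTheory
open scoped NNReal ENNReal

namespace Vale.Agent.P139.A

variable {d : ℕ}

lemma expi_add (m n : Fin d → ℤ) (x : Fin d → ℝ) : expi (m + n) x = expi m x * expi n x := by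
  unfold expi
  rw [← Complex.exp_add, ← mul_add, ← Finset.sum_add_distrib]
  congr 2
  refine Finset.sum_congr rfl fun j _ => ?_
  simp only [Pi.add_apply, Int.cast_add]
  ring

lemma expi_zero (x : Fin d → ℝ) : expi 0 x = 1 := by simp [expi]

lemma expi_eq (n : Fin d → ℤ) (x : Fin d → ℝ) :
    expi n x = Complex.exp (((∑ j, (n j : ℝ) * x j : ℝ) : ℂ) * Complex.I) := by
  unfold expi
  congr 1
  push_cast
  ring

lemma norm_expi (n : Fin d → ℤ) (x : Fin d → ℝ) : ‖expi n x‖ = 1 := by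
  rw [expi_eq, Complex.norm_exp_ofReal_mul_I]

lemma conj_expi (n : Fin d → ℤ) (x : Fin d → ℝ) : (starRingEnd ℂ) (expi n x) = expi (-n) x := by
  rw [expi_eq, expi_eq, ← Complex.exp_conj]
  congr 1
  simp [Finset.sum_neg_distrib]

lemma continuous_expi (n : Fin d → ℤ) : Continuous (expi n) := by
  unfold expi
  fun_prop

lemma integral_exp_one (n : ℤ) :
    ∫ x in Icc (0 : ℝ) (2 * Real.pi), Complex.exp (Complex.I * ((n : ℂ) * (x : ℂ))) =
      if n = 0 then (2 * Real.pi : ℂ) else 0 := by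
  have hpi : (0 : ℝ) ≤ 2 * Real.pi := by positivity
  rw [integral_Icc_eq_integral_Ioc, ← intervalIntegral.integral_of_le hpi]
  split_ifs with h
  · subst h
    simp
  · have hc : Complex.I * (n : ℂ) ≠ 0 := by
      simp [h]
    have : ∀ x : ℝ, Complex.exp (Complex.I * ((n : ℂ) * (x : ℂ))) =
        Complex.exp ((Complex.I * n) * x) := by
      intro x; ring_nf
    simp_rw [this]
    rw [integral_exp_mul_complex hc]
    have h2 : Complex.exp (Complex.I * n * ((2 * Real.pi : ℝ) : ℂ)) = 1 := by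
      rw [Complex.exp_eq_one_iff]
      exact ⟨n, by push_cast; ring⟩
    rw [h2]
    simp

lemma integral_expi (n : Fin d → ℤ) :
    ∫ x in Icc (0 : Fin d → ℝ) (fun _ => 2 * Real.pi), expi n x =
      if n = 0 then (2 * Real.pi : ℂ) ^ d else 0 := by
  have h1 : ∀ x : Fin d → ℝ, expi n x = ∏ j, Complex.exp (Complex.I * ((n j : ℂ) * (x j : ℂ))) := by
    intro x
    unfold expi
    rw [← Complex.exp_sum, Finset.mul_sum]
  simp_rw [h1]
  have h2 : (volume : Measure (Fin d → ℝ)).restrict (Icc 0 (fun _ => 2 * Real.pi)) =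
      Measure.pi (fun _ : Fin d => (volume : Measure ℝ).restrict (Icc 0 (2 * Real.pi))) := by
    rw [← Set.pi_univ_Icc, volume_pi, Measure.restrict_pi_pi]
    rfl
  rw [h2, integral_fintype_prod_eq_prod
    (fun (j : Fin d) (y : ℝ) => Complex.exp (Complex.I * ((n j : ℂ) * (y : ℂ))))]
  simp_rw [integral_exp_one]
  split_ifs with h
  · subst h
    simp
  · obtain ⟨j, hj⟩ : ∃ j, n j ≠ 0 := by
      by_contra hcon
      push_neg at hcon
      exact h (funext hcon)
    apply Finset.prod_eq_zero (Finset.mem_univ j)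
    rw [if_neg hj]

/-- Fourier coefficients of an absolutely convergent Fourier series. -/
lemma fourierCoef_series {a : (Fin d → ℤ) → ℂ} (ha : Summable fun n => ‖a n‖) (n : Fin d → ℤ) :
    fourierCoef (series a) n = a n := by
  unfold fourierCoef series
  have h1 : ∀ x : Fin d → ℝ, (∑' m, a m * expi m x) * expi (-n) x =
      ∑' m, a m * expi (m - n) x := by
    intro x
    rw [← tsum_mul_right]
    refine tsum_congr fun m => ?_
    rw [sub_eq_add_neg, expi_add, mul_assoc]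
  simp_rw [h1]
  have hfin : (volume : Measure (Fin d → ℝ)) (Icc 0 (fun _ => 2 * Real.pi)) ≠ ∞ :=
    (isCompact_Icc.measure_lt_top).ne
  have hint : ∀ m, IntegrableOn (fun x => a m * expi (m - n) x)
      (Icc (0 : Fin d → ℝ) (fun _ => 2 * Real.pi)) := fun m =>
    (continuous_const.mul (continuous_expi _)).continuousOn.integrableOn_compact isCompact_Icc
  have h3 : ∀ m, ∫ x in Icc (0 : Fin d → ℝ) (fun _ => 2 * Real.pi), ‖a m * expi (m - n) x‖ =
      ‖a m‖ * (volume : Measure (Fin d → ℝ)).real (Icc 0 (fun _ => 2 * Real.pi)) := by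
    intro m
    simp_rw [norm_mul, norm_expi, mul_one]
    rw [setIntegral_const, smul_eq_mul, mul_comm]
  have h2 := hasSum_integral_of_summable_integral_norm hint (by
    simp_rw [h3]
    exact ha.mul_right _)
  rw [← h2.tsum_eq]
  have h4 : ∀ m, ∫ x in Icc (0 : Fin d → ℝ) (fun _ => 2 * Real.pi), a m * expi (m - n) x =
      if m = n then a n * (2 * Real.pi : ℂ) ^ d else 0 := by
    intro m
    rw [integral_const_mul, integral_expi]
    by_cases h : m = n
    · subst h; simp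
    · have : m - n ≠ 0 := sub_ne_zero.2 h
      simp [h, this]
  simp_rw [h4]
  rw [tsum_ite_eq]
  have : (2 * Real.pi : ℂ) ^ d ≠ 0 := by
    apply pow_ne_zero
    simp [Real.pi_ne_zero]
  field_simp

lemma series_injective {a b : (Fin d → ℤ) → ℂ} (ha : Summable fun n => ‖a n‖)
    (hb : Summable fun n => ‖b n‖) (h : ∀ x, series a x = series b x) : a = b := by
  funext n
  rw [← fourierCoef_series ha n, ← fourierCoef_series hb n, funext h]

end Vale.Agent.P139.A
end
end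

section

section

open Set Metric Filter Topology MeasureTheory
open scoped NNReal ENNReal

namespace Vale.Agent.P139.A

/-- Frequencies. -/
abbrev Lat (d : ℕ) := Fin d → ℤ

/-- The weight `(1+|n|)^k` (sup norm). -/
noncomputable def W (k : ℕ) {d : ℕ} (n : Lat d) : ℝ := (1 + ‖n‖) ^ k

variable {d k : ℕ}

lemma W_pos (n : Lat d) : 0 < W k n := by unfold W; positivity

lemma W_ne (n : Lat d) : (W k n : ℂ) ≠ 0 := by
  exact_mod_cast (W_pos (k := k) n).ne'

lemma one_le_W (n : Lat d) : 1 ≤ W k n := by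
  unfold W
  apply one_le_pow₀
  linarith [norm_nonneg n]

lemma W_zero : W k (0 : Lat d) = 1 := by simp [W]

lemma W_neg (n : Lat d) : W k (-n) = W k n := by simp [W]

lemma W_add_le (m n : Lat d) : W k (m + n) ≤ W k m * W k n := by
  unfold W
  rw [← mul_pow]
  gcongr
  nlinarith [norm_add_le m n, norm_nonneg m, norm_nonneg n, mul_nonneg (norm_nonneg m) (norm_nonneg n)]

/-- The weighted Wiener algebra, as a type synonym of `ℓ¹`. -/
def WA (d k : ℕ) : Type := lp (fun _ : Lat d => ℂ) 1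

namespace WA

noncomputable instance : NormedAddCommGroup (WA d k) :=
  inferInstanceAs (NormedAddCommGroup (lp (fun _ : Lat d => ℂ) 1))

noncomputable instance : NormedSpace ℂ (WA d k) :=
  inferInstanceAs (NormedSpace ℂ (lp (fun _ : Lat d => ℂ) 1))

instance : CompleteSpace (WA d k) :=
  inferInstanceAs (CompleteSpace (lp (fun _ : Lat d => ℂ) 1))

/-- Fourier coefficients of an element. -/
noncomputable def coef (a : WA d k) (n : Lat d) : ℂ := (show lp (fun _ : Lat d => ℂ) 1 from a) n / W k n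

/-- Element with given coefficients. -/
noncomputable def mk (c : Lat d → ℂ) (h : Summable fun n => W k n * ‖c n‖) : WA d k :=
  (⟨fun n => W k n * c n, by
    show Memℓp _ _
    rw [memℓp_gen_iff (by norm_num)]
    simpa [abs_of_pos (W_pos _)] using h⟩ : lp (fun _ : Lat d => ℂ) 1)

lemma coef_mk (c : Lat d → ℂ) (h : Summable fun n => W k n * ‖c n‖) (n : Lat d) :
    coef (mk c h) n = c n := by
  show (W k n * c n : ℂ) / W k n = c n
  rw [mul_div_cancel_left₀ _ (W_ne n)]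

lemma norm_eq (a : WA d k) : ‖a‖ = ∑' n, W k n * ‖coef a n‖ := by
  have := lp.norm_eq_tsum_rpow (p := 1) (by norm_num) (show lp (fun _ : Lat d => ℂ) 1 from a)
  simp only [ENNReal.toReal_one, Real.rpow_one, div_one] at this
  refine Eq.trans this (tsum_congr fun n => ?_)
  unfold coef
  rw [norm_div, Complex.norm_real, Real.norm_of_nonneg (W_pos n).le, mul_div_cancel₀ _ (W_pos n).ne']

lemma summable (a : WA d k) : Summable fun n => W k n * ‖coef a n‖ := by
  have := (lp.memℓp (show lp (fun _ : Lat d => ℂ) 1 from a)).summable (by norm_num)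
  simp only [ENNReal.toReal_one, Real.rpow_one] at this
  refine this.congr fun n => ?_
  unfold coef
  rw [norm_div, Complex.norm_real, Real.norm_of_nonneg (W_pos n).le, mul_div_cancel₀ _ (W_pos n).ne']

@[ext] lemma ext {a b : WA d k} (h : ∀ n, coef a n = coef b n) : a = b := by
  apply lp.ext
  funext n
  have := h n
  unfold coef at this
  rw [div_left_inj' (W_ne n)] at this
  exact this

@[simp] lemma coef_add (a b : WA d k) (n : Lat d) : coef (a + b) n = coef a n + coef b n := by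
  unfold coef
  rw [← add_div]
  rfl

@[simp] lemma coef_smul (c : ℂ) (a : WA d k) (n : Lat d) : coef (c • a) n = c * coef a n := by
  unfold coef
  rw [← mul_div_assoc]
  rfl

@[simp] lemma coef_zero (n : Lat d) : coef (0 : WA d k) n = 0 := by
  unfold coef
  exact zero_div _

@[simp] lemma coef_neg (a : WA d k) (n : Lat d) : coef (-a) n = - coef a n := by
  unfold coef
  rw [← neg_div]
  rfl

@[simp] lemma coef_sub (a b : WA d k) (n : Lat d) : coef (a - b) n = coef a n - coef b n := by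
  rw [sub_eq_add_neg, coef_add, coef_neg, sub_eq_add_neg]

lemma norm_coef_le (a : WA d k) (n : Lat d) : W k n * ‖coef a n‖ ≤ ‖a‖ := by
  rw [norm_eq]
  exact a.summable.le_tsum n (fun m _ => mul_nonneg (W_pos m).le (norm_nonneg _))

lemma norm_coef_le' (a : WA d k) (n : Lat d) : ‖coef a n‖ ≤ ‖a‖ := by
  refine le_trans ?_ (norm_coef_le a n)
  nlinarith [one_le_W (k := k) n, norm_nonneg (coef a n)]

lemma summable_norm (a : WA d k) : Summable fun n => ‖coef a n‖ := by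
  refine Summable.of_nonneg_of_le (fun _ => norm_nonneg _) (fun n => ?_) a.summable
  nlinarith [one_le_W (k := k) n, norm_nonneg (coef a n)]

/-- Coefficient as a continuous linear functional. -/
noncomputable def coefL (n : Lat d) : WA d k →L[ℂ] ℂ :=
  LinearMap.mkContinuous
    { toFun := fun a => coef a n
      map_add' := fun a b => coef_add a b n
      map_smul' := fun c a => coef_smul c a n } 1
    (fun a => by rw [one_mul]; exact norm_coef_le' a n)

@[simp] lemma coefL_apply (n : Lat d) (a : WA d k) : coefL n a = coef a n := rfl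

/-- Evaluation of the Fourier series. -/
noncomputable def ev (a : WA d k) (x : Fin d → ℝ) : ℂ := series (coef a) x

lemma summable_ev (a : WA d k) (x : Fin d → ℝ) : Summable fun n => coef a n * expi n x := by
  apply Summable.of_norm
  simpa [norm_expi] using a.summable_norm

lemma ev_add (a b : WA d k) (x : Fin d → ℝ) : ev (a + b) x = ev a x + ev b x := by
  unfold ev series
  rw [← (a.summable_ev x).tsum_add (b.summable_ev x)]
  simp [add_mul]

lemma ev_smul (c : ℂ) (a : WA d k) (x : Fin d → ℝ) : ev (c • a) x = c * ev a x := by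
  unfold ev series
  rw [← tsum_mul_left]
  simp [mul_assoc]

lemma ev_zero (x : Fin d → ℝ) : ev (0 : WA d k) x = 0 := by simp [ev, series]

lemma ev_injective {a b : WA d k} (h : ∀ x, ev a x = ev b x) : a = b := by
  ext n
  exact congrFun (series_injective a.summable_norm b.summable_norm h) n

/-- Reindexing `(n, m) ↦ (m, n - m)`. -/
def shear (d : ℕ) : Lat d × Lat d ≃ Lat d × Lat d where
  toFun p := (p.2, p.1 - p.2)
  invFun q := (q.1 + q.2, q.1)
  left_inv p := by simp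
  right_inv q := by simp

lemma summable_shear (a b : WA d k) : Summable fun p : Lat d × Lat d =>
    (W k p.2 * ‖coef a p.2‖) * (W k (p.1 - p.2) * ‖coef b (p.1 - p.2)‖) := by
  have h : Summable fun q : Lat d × Lat d => (W k q.1 * ‖coef a q.1‖) * (W k q.2 * ‖coef b q.2‖) :=
    a.summable.mul_of_nonneg b.summable
      (fun m => mul_nonneg (W_pos m).le (norm_nonneg _))
      (fun m => mul_nonneg (W_pos m).le (norm_nonneg _))
  exact (shear d).summable_iff.2 h

/-- Convolution of coefficients. -/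
noncomputable def conv (a b : WA d k) (n : Lat d) : ℂ := ∑' m, coef a m * coef b (n - m)

lemma summable_conv_norm (a b : WA d k) (n : Lat d) :
    Summable fun m => ‖coef a m * coef b (n - m)‖ := by
  have h := (summable_shear a b).prod_factor n
  refine Summable.of_nonneg_of_le (fun _ => norm_nonneg _) (fun m => ?_) h
  rw [norm_mul]
  have h1 := one_le_W (k := k) m
  have h2 := one_le_W (k := k) (n - m)
  gcongr
  · nlinarith [norm_nonneg (coef a m)]
  · nlinarith [norm_nonneg (coef b (n - m))]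

lemma W_conv_le (a b : WA d k) (n : Lat d) :
    W k n * ‖conv a b n‖ ≤ ∑' m, (W k m * ‖coef a m‖) * (W k (n - m) * ‖coef b (n - m)‖) := by
  unfold conv
  calc W k n * ‖∑' m, coef a m * coef b (n - m)‖
      ≤ W k n * ∑' m, ‖coef a m * coef b (n - m)‖ := by
        gcongr
        · exact (W_pos n).le
        · exact norm_tsum_le_tsum_norm (summable_conv_norm a b n)
    _ = ∑' m, W k n * ‖coef a m * coef b (n - m)‖ := tsum_mul_left.symm
    _ ≤ _ := by
        refine ((summable_conv_norm a b n).mul_left _).tsum_le_tsum (fun m => ?_)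
          ((summable_shear a b).prod_factor n)
        have h : W k n ≤ W k m * W k (n - m) := by
          have := W_add_le (k := k) m (n - m)
          rwa [add_sub_cancel] at this
        rw [norm_mul]
        calc W k n * (‖coef a m‖ * ‖coef b (n - m)‖)
            ≤ (W k m * W k (n - m)) * (‖coef a m‖ * ‖coef b (n - m)‖) := by gcongr
          _ = _ := by ring

lemma summable_conv (a b : WA d k) : Summable fun n => W k n * ‖conv a b n‖ :=
  Summable.of_nonneg_of_le (fun n => mul_nonneg (W_pos n).le (norm_nonneg _)) (W_conv_le a b)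
    (summable_shear a b).prod

noncomputable instance : Mul (WA d k) := ⟨fun a b => mk (conv a b) (summable_conv a b)⟩

lemma coef_mul (a b : WA d k) (n : Lat d) : coef (a * b) n = ∑' m, coef a m * coef b (n - m) :=
  coef_mk _ _ _

lemma norm_mul_le' (a b : WA d k) : ‖a * b‖ ≤ ‖a‖ * ‖b‖ := by
  rw [norm_eq (a * b)]
  have h1 : ∀ n, W k n * ‖coef (a * b) n‖ ≤
      ∑' m, (W k m * ‖coef a m‖) * (W k (n - m) * ‖coef b (n - m)‖) := by
    intro n
    rw [coef_mul]
    exact W_conv_le a b n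
  refine ((a * b).summable.tsum_le_tsum h1 (summable_shear a b).prod).trans (le_of_eq ?_)
  rw [← (summable_shear a b).tsum_prod, norm_eq a, norm_eq b]
  rw [Summable.tsum_mul_tsum a.summable b.summable
    (a.summable.mul_of_nonneg b.summable
      (fun m => mul_nonneg (W_pos m).le (norm_nonneg _))
      (fun m => mul_nonneg (W_pos m).le (norm_nonneg _)))]
  exact (shear d).tsum_eq
    (fun q : Lat d × Lat d => (W k q.1 * ‖coef a q.1‖) * (W k q.2 * ‖coef b q.2‖))

lemma ev_mul (a b : WA d k) (x : Fin d → ℝ) : ev (a * b) x = ev a x * ev b x := by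
  have ha : Summable fun m => ‖coef a m * expi m x‖ := (a.summable_ev x).norm
  have hb : Summable fun m => ‖coef b m * expi m x‖ := (b.summable_ev x).norm
  have hs : Summable fun q : Lat d × Lat d => (coef a q.1 * expi q.1 x) * (coef b q.2 * expi q.2 x) :=
    summable_mul_of_summable_norm (f := fun m => coef a m * expi m x)
      (g := fun m => coef b m * expi m x) ha hb
  have h1 : ev a x * ev b x = ∑' q : Lat d × Lat d,
      (coef a q.1 * expi q.1 x) * (coef b q.2 * expi q.2 x) := by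
    unfold ev series
    exact Summable.tsum_mul_tsum (a.summable_ev x) (b.summable_ev x) hs
  have hs2 : Summable fun p : Lat d × Lat d =>
      (coef a p.2 * expi p.2 x) * (coef b (p.1 - p.2) * expi (p.1 - p.2) x) :=
    (shear d).summable_iff.2 hs
  have h2 : ∑' q : Lat d × Lat d, (coef a q.1 * expi q.1 x) * (coef b q.2 * expi q.2 x) =
      ∑' p : Lat d × Lat d, (coef a p.2 * expi p.2 x) * (coef b (p.1 - p.2) * expi (p.1 - p.2) x) :=
    ((shear d).tsum_eq
      (fun q : Lat d × Lat d => (coef a q.1 * expi q.1 x) * (coef b q.2 * expi q.2 x))).symm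
  rw [h1, h2, hs2.tsum_prod]
  unfold ev series
  refine tsum_congr fun n => ?_
  rw [coef_mul, ← tsum_mul_right]
  refine tsum_congr fun m => ?_
  have : expi n x = expi m x * expi (n - m) x := by
    rw [← expi_add, add_sub_cancel]
  rw [this]
  ring

/-- The unit. -/
noncomputable instance : One (WA d k) := ⟨mk (fun n => if n = 0 then 1 else 0) (by
  refine summable_of_ne_finset_zero (s := {0}) (fun n hn => ?_)
  simp only [Finset.mem_singleton] at hn
  simp [hn])⟩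

lemma coef_one (n : Lat d) : coef (1 : WA d k) n = if n = 0 then 1 else 0 := coef_mk _ _ _

lemma ev_one (x : Fin d → ℝ) : ev (1 : WA d k) x = 1 := by
  unfold ev series
  rw [tsum_eq_single 0]
  · simp [coef_one, expi_zero]
  · intro n hn
    simp [coef_one, hn]

noncomputable instance : NormedCommRing (WA d k) :=
  { (inferInstance : NormedAddCommGroup (WA d k)) with
    mul := (· * ·)
    one := 1
    left_distrib := fun a b c => ev_injective fun x => by
      simp only [ev_mul, ev_add]; ring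
    right_distrib := fun a b c => ev_injective fun x => by
      simp only [ev_mul, ev_add]; ring
    zero_mul := fun a => ev_injective fun x => by
      simp only [ev_mul, ev_zero]; ring
    mul_zero := fun a => ev_injective fun x => by
      simp only [ev_mul, ev_zero]; ring
    mul_assoc := fun a b c => ev_injective fun x => by
      simp only [ev_mul]; ring
    one_mul := fun a => ev_injective fun x => by
      simp only [ev_mul, ev_one]; ring
    mul_one := fun a => ev_injective fun x => by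
      simp only [ev_mul, ev_one]; ring
    mul_comm := fun a b => ev_injective fun x => by
      simp only [ev_mul]; ring
    norm_mul_le := norm_mul_le' }

noncomputable instance : NormedAlgebra ℂ (WA d k) :=
  { Algebra.ofModule (R := ℂ) (A := WA d k)
      (fun c a b => ev_injective fun x => by simp only [ev_mul, ev_smul]; ring)
      (fun c a b => ev_injective fun x => by simp only [ev_mul, ev_smul]; ring) with
    norm_smul_le := fun c a => (norm_smul_le c a) }

end WA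

end Vale.Agent.P139.A
end
end

section

section

open Set Metric Filter Topology MeasureTheory
open scoped NNReal ENNReal ComplexConjugate

namespace Vale.Agent.P139.A

variable {d k : ℕ}

namespace WA

noncomputable instance : NormedSpace ℝ (WA d k) := NormedSpace.complexToReal

lemma real_smul (r : ℝ) (a : WA d k) : r • a = (r : ℂ) • a := rfl

lemma coef_real_smul (r : ℝ) (a : WA d k) (n : Lat d) : coef (r • a) n = r * coef a n := by
  rw [real_smul, coef_smul]

lemma summable_neg (a : WA d k) : Summable fun n => W k n * ‖coef a (-n)‖ := by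
  have := (Equiv.neg (Lat d)).summable_iff.2 a.summable
  refine this.congr fun n => ?_
  simp [W_neg]

lemma tsum_neg' (a : WA d k) : ∑' n, W k n * ‖coef a (-n)‖ = ‖a‖ := by
  rw [norm_eq, ← (Equiv.neg (Lat d)).tsum_eq fun n => W k n * ‖coef a n‖]
  refine tsum_congr fun n => ?_
  simp [W_neg]

lemma pair_summable {α β : Lat d → ℂ} {A : ℝ} (hα : ∀ n, ‖α n‖ ≤ A) (hβ : ∀ n, ‖β n‖ ≤ A)
    (a : WA d k) :
    Summable fun n => W k n * ‖α n * coef a n + β n * conj (coef a (-n))‖ := by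
  refine Summable.of_nonneg_of_le (fun n => mul_nonneg (W_pos n).le (norm_nonneg _)) (fun n => ?_)
    ((a.summable.mul_left A).add (a.summable_neg.mul_left A))
  have h1 : ‖α n * coef a n + β n * conj (coef a (-n))‖ ≤ A * ‖coef a n‖ + A * ‖coef a (-n)‖ := by
    refine (norm_add_le _ _).trans ?_
    rw [norm_mul, norm_mul, RCLike.norm_conj]
    gcongr
    exacts [hα n, hβ n]
  calc _ ≤ W k n * (A * ‖coef a n‖ + A * ‖coef a (-n)‖) := by
        gcongr
        exact (W_pos n).le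
    _ = _ := by ring

/-- The real-linear operator `a ↦ (α_n a_n + β_n conj a_{-n})_n`. -/
noncomputable def pairOp (α β : Lat d → ℂ) (A : ℝ) (hα : ∀ n, ‖α n‖ ≤ A) (hβ : ∀ n, ‖β n‖ ≤ A) :
    WA d k →L[ℝ] WA d k :=
  LinearMap.mkContinuous
    { toFun := fun a => mk (fun n => α n * coef a n + β n * conj (coef a (-n)))
        (pair_summable hα hβ a)
      map_add' := fun a b => by
        ext n
        simp only [coef_mk, coef_add, map_add]
        ring
      map_smul' := fun r a => by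
        ext n
        simp only [coef_mk, coef_real_smul, RingHom.id_apply, map_mul, Complex.conj_ofReal]
        ring } (2 * A) (fun a => by
        simp only [LinearMap.coe_mk, AddHom.coe_mk]
        rw [norm_eq]
        simp only [coef_mk]
        have h := (pair_summable hα hβ a).tsum_le_tsum (fun n => ?_)
          ((a.summable.mul_left A).add (a.summable_neg.mul_left A))
        · refine h.trans (le_of_eq ?_)
          rw [(a.summable.mul_left A).tsum_add (a.summable_neg.mul_left A), tsum_mul_left,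
            tsum_mul_left, tsum_neg', ← norm_eq]
          ring
        · have h1 : ‖α n * coef a n + β n * conj (coef a (-n))‖ ≤
              A * ‖coef a n‖ + A * ‖coef a (-n)‖ := by
            refine (norm_add_le _ _).trans ?_
            rw [norm_mul, norm_mul, RCLike.norm_conj]
            gcongr
            exacts [hα n, hβ n]
          calc _ ≤ W k n * (A * ‖coef a n‖ + A * ‖coef a (-n)‖) := by
                gcongr
                exact (W_pos n).le
            _ = _ := by ring)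

lemma coef_pairOp (α β : Lat d → ℂ) (A : ℝ) (hα : ∀ n, ‖α n‖ ≤ A) (hβ : ∀ n, ‖β n‖ ≤ A)
    (a : WA d k) (n : Lat d) :
    coef (pairOp α β A hα hβ a) n = α n * coef a n + β n * conj (coef a (-n)) :=
  coef_mk _ (pair_summable hα hβ a) _

lemma norm_pairOp_le (α β : Lat d → ℂ) (A : ℝ) (hA : 0 ≤ A) (hα : ∀ n, ‖α n‖ ≤ A)
    (hβ : ∀ n, ‖β n‖ ≤ A) : ‖(pairOp α β A hα hβ : WA d k →L[ℝ] WA d k)‖ ≤ 2 * A :=
  LinearMap.mkContinuous_norm_le _ (by positivity) _

/-- Dominated convergence in the Wiener algebra. -/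
lemma continuous_of_dominated {Y : Type*} [TopologicalSpace Y] [FirstCountableTopology Y]
    {f : Y → WA d k} (u : Lat d → ℝ) (hu : Summable u)
    (hf : ∀ n, Continuous fun t => coef (f t) n)
    (hb : ∀ t n, W k n * ‖coef (f t) n‖ ≤ u n) : Continuous f := by
  rw [continuous_iff_continuousAt]
  intro t
  rw [ContinuousAt, tendsto_iff_norm_sub_tendsto_zero]
  simp_rw [norm_eq]
  have h0 : ∑' n : Lat d, (0 : ℝ) = 0 := tsum_zero
  rw [← h0]
  refine tendsto_tsum_of_dominated_convergence (bound := fun n => 2 * u n) (hu.mul_left 2)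
    (fun n => ?_) (Eventually.of_forall fun s n => ?_)
  · have h1 : Continuous fun s => W k n * ‖coef (f s - f t) n‖ := by
      simp_rw [coef_sub]
      exact continuous_const.mul ((hf n).sub continuous_const).norm
    have h2 := h1.tendsto t
    simpa using h2
  · rw [Real.norm_of_nonneg (mul_nonneg (W_pos n).le (norm_nonneg _)), coef_sub]
    have h3 := norm_sub_le (coef (f s) n) (coef (f t) n)
    calc W k n * ‖coef (f s) n - coef (f t) n‖
        ≤ W k n * (‖coef (f s) n‖ + ‖coef (f t) n‖) := by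
          gcongr
          exact (W_pos n).le
      _ ≤ 2 * u n := by
          have := hb s n
          have := hb t n
          linarith

end WA

open WA

lemma sqNorm_neg (n : Lat d) : sqNorm (-n) = sqNorm n := by simp [sqNorm]

lemma sqNorm_nonneg (n : Lat d) : 0 ≤ sqNorm n := Finset.sum_nonneg fun _ _ => sq_nonneg _

lemma sqNorm_zero : sqNorm (0 : Lat d) = 0 := by simp [sqNorm]

lemma one_le_sqNorm {n : Lat d} (hn : n ≠ 0) : 1 ≤ sqNorm n := by
  obtain ⟨j, hj⟩ : ∃ j, n j ≠ 0 := by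
    by_contra hcon
    push Not at hcon
    exact hn (funext hcon)
  have h1 : (1 : ℝ) ≤ (n j : ℝ) ^ 2 := by
    have : (1 : ℤ) ≤ (n j) ^ 2 := by
      have := sq_pos_of_ne_zero hj
      linarith
    exact_mod_cast this
  exact h1.trans (Finset.single_le_sum (f := fun j => ((n j : ℝ)) ^ 2)
    (fun _ _ => sq_nonneg _) (Finset.mem_univ j))

/-- Bogoliubov frequency. -/
noncomputable def Om (μ : ℝ) (n : Lat d) : ℝ := Real.sqrt (sqNorm n * (sqNorm n + 2 * μ))

lemma Om_neg (μ : ℝ) (n : Lat d) : Om μ (-n) = Om μ n := by simp [Om, sqNorm_neg]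

lemma Om_sq {μ : ℝ} (hμ : 0 ≤ μ) (n : Lat d) : Om μ n ^ 2 = sqNorm n * (sqNorm n + 2 * μ) := by
  unfold Om
  rw [Real.sq_sqrt]
  have := sqNorm_nonneg n
  positivity

lemma Om_zero (μ : ℝ) : Om μ (0 : Lat d) = 0 := by simp [Om, sqNorm_zero]

lemma one_le_Om {μ : ℝ} (hμ : 0 ≤ μ) {n : Lat d} (hn : n ≠ 0) : 1 ≤ Om μ n := by
  unfold Om
  rw [Real.one_le_sqrt]
  have := one_le_sqNorm hn
  nlinarith

/-- Diagonal coefficient of the propagator. -/
noncomputable def al (μ t : ℝ) (n : Lat d) : ℂ :=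
  (Real.cos (Om μ n * t) : ℂ) -
    Complex.I * (((sqNorm n + μ) * Real.sin (Om μ n * t) / Om μ n : ℝ) : ℂ)

/-- Off-diagonal coefficient of the propagator. -/
noncomputable def be (μ t : ℝ) (n : Lat d) : ℂ :=
  -Complex.I * ((μ * Real.sin (Om μ n * t) / Om μ n : ℝ) : ℂ)

lemma al_neg (μ t : ℝ) (n : Lat d) : al μ t (-n) = al μ t n := by simp [al, Om_neg, sqNorm_neg]

lemma be_neg (μ t : ℝ) (n : Lat d) : be μ t (-n) = be μ t n := by simp [be, Om_neg]

lemma norm_be_le {μ : ℝ} (hμ : 0 ≤ μ) (t : ℝ) (n : Lat d) : ‖be μ t n‖ ≤ 2 + μ := by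
  unfold be
  rw [norm_mul, norm_neg, Complex.norm_I, one_mul, Complex.norm_real, Real.norm_eq_abs, abs_div,
    abs_mul, abs_of_nonneg hμ]
  by_cases hn : n = 0
  · subst hn
    simp [Om_zero]
    linarith
  · have h1 := one_le_Om hμ hn
    rw [abs_of_pos (by linarith : 0 < Om μ n), div_le_iff₀ (by linarith)]
    have h2 := Real.abs_sin_le_one (Om μ n * t)
    have h3 : μ * |Real.sin (Om μ n * t)| ≤ μ * 1 := by gcongr
    nlinarith

lemma norm_al_le {μ : ℝ} (hμ : 0 ≤ μ) (t : ℝ) (n : Lat d) : ‖al μ t n‖ ≤ 2 + μ := by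
  unfold al
  refine (norm_sub_le _ _).trans ?_
  rw [norm_mul, Complex.norm_I, one_mul, Complex.norm_real, Complex.norm_real, Real.norm_eq_abs,
    Real.norm_eq_abs, abs_div, abs_mul]
  have hc := Real.abs_cos_le_one (Om μ n * t)
  by_cases hn : n = 0
  · subst hn
    simp [Om_zero]
    linarith
  · have h1 := one_le_Om hμ hn
    have h2 := Real.abs_sin_le_one (Om μ n * t)
    have h4 := sqNorm_nonneg n
    have h5 : |sqNorm n + μ| ≤ Om μ n * (1 + μ) := by
      rw [abs_of_nonneg (by positivity)]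
      have h6 := Om_sq hμ n
      have h7 : sqNorm n ≤ Om μ n := by
        apply le_of_sq_le_sq _ (by linarith)
        rw [h6]
        nlinarith
      nlinarith
    have h8 : |sqNorm n + μ| * |Real.sin (Om μ n * t)| / |Om μ n| ≤ 1 + μ := by
      rw [abs_of_pos (by linarith : 0 < Om μ n), div_le_iff₀ (by linarith)]
      calc |sqNorm n + μ| * |Real.sin (Om μ n * t)| ≤ |sqNorm n + μ| * 1 := by gcongr
        _ ≤ (1 + μ) * Om μ n := by linarith
    linarith

/-- The propagator. -/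
noncomputable def S (k : ℕ) {d : ℕ} {μ : ℝ} (hμ : 0 ≤ μ) (t : ℝ) : WA d k →L[ℝ] WA d k :=
  pairOp (al μ t) (be μ t) (2 + μ) (norm_al_le hμ t) (norm_be_le hμ t)

lemma coef_S {μ : ℝ} (hμ : 0 ≤ μ) (t : ℝ) (a : WA d k) (n : Lat d) :
    coef (S k hμ t a) n = al μ t n * coef a n + be μ t n * conj (coef a (-n)) :=
  coef_pairOp _ _ _ _ _ _ _

lemma norm_S_le {μ : ℝ} (hμ : 0 ≤ μ) (t : ℝ) : ‖(S k hμ t : WA d k →L[ℝ] WA d k)‖ ≤ 2 * (2 + μ) :=
  norm_pairOp_le _ _ _ (by linarith) _ _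

lemma continuous_al (μ : ℝ) (n : Lat d) : Continuous fun t => al μ t n := by
  unfold al
  fun_prop

lemma continuous_be (μ : ℝ) (n : Lat d) : Continuous fun t => be μ t n := by
  unfold be
  fun_prop

lemma continuous_S {μ : ℝ} (hμ : 0 ≤ μ) (a : WA d k) : Continuous fun t => S k hμ t a := by
  refine continuous_of_dominated
    (fun n => (2 + μ) * (W k n * ‖coef a n‖) + (2 + μ) * (W k n * ‖coef a (-n)‖))
    ((a.summable.mul_left _).add (a.summable_neg.mul_left _)) (fun n => ?_) (fun t n => ?_)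
  · simp_rw [coef_S]
    exact ((continuous_al μ n).mul continuous_const).add
      ((continuous_be μ n).mul continuous_const)
  · rw [coef_S]
    have h1 : ‖al μ t n * coef a n + be μ t n * conj (coef a (-n))‖ ≤
        (2 + μ) * ‖coef a n‖ + (2 + μ) * ‖coef a (-n)‖ := by
      refine (norm_add_le _ _).trans ?_
      rw [norm_mul, norm_mul, RCLike.norm_conj]
      gcongr
      exacts [norm_al_le hμ t n, norm_be_le hμ t n]
    calc _ ≤ W k n * ((2 + μ) * ‖coef a n‖ + (2 + μ) * ‖coef a (-n)‖) := by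
          gcongr
          exact (W_pos n).le
      _ = _ := by ring

lemma al_mul_conj {μ : ℝ} (hμ : 0 ≤ μ) (t : ℝ) (n : Lat d) :
    al μ t n * al μ (-t) n + be μ t n * conj (be μ (-t) n) = 1 := by
  unfold al be
  simp only [mul_neg, Real.cos_neg, Real.sin_neg, map_mul, map_neg, Complex.conj_I,
    Complex.conj_ofReal, neg_mul, neg_div]
  push_cast
  set c := Complex.cos ((Om μ n : ℂ) * (t : ℂ)) with hc
  set s := Complex.sin ((Om μ n : ℂ) * (t : ℂ)) with hs
  have hcs : c ^ 2 + s ^ 2 = 1 := by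
    rw [hc, hs, add_comm]; exact Complex.sin_sq_add_cos_sq _
  by_cases hn : n = 0
  · subst hn
    simp [Om_zero] at hc hs ⊢
    simp [hc]
  · have h1 : (Om μ n : ℂ) ≠ 0 := by
      have := one_le_Om hμ hn
      exact_mod_cast (by linarith : (0:ℝ) < Om μ n).ne'
    have h2 : ((Om μ n : ℂ)) ^ 2 = sqNorm n * (sqNorm n + 2 * μ) := by
      exact_mod_cast Om_sq hμ n
    have h3 : (c - Complex.I * ((sqNorm n + μ) * s / Om μ n)) *
        (c + Complex.I * ((sqNorm n + μ) * s / Om μ n)) +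
        (Complex.I * (μ * s / Om μ n)) * (Complex.I * (μ * s / Om μ n)) = 
        c ^ 2 + s ^ 2 * ((sqNorm n * (sqNorm n + 2 * μ)) / (Om μ n) ^ 2) := by
      have := Complex.I_sq
      field_simp
      linear_combination (s ^ 2 * (μ ^ 2 - (sqNorm n + μ) ^ 2)) * this
    rw [← h2, div_self (pow_ne_zero 2 h1), mul_one, hcs] at h3
    rw [← h3]
    ring

lemma al_be_comm (μ t : ℝ) (n : Lat d) :
    al μ t n * be μ (-t) n + be μ t n * conj (al μ (-t) n) = 0 := by
  unfold al be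
  simp only [mul_neg, Real.cos_neg, Real.sin_neg, map_mul, map_sub, Complex.conj_I,
    Complex.conj_ofReal, neg_mul, neg_div]
  push_cast
  ring

lemma S_S_neg {μ : ℝ} (hμ : 0 ≤ μ) (t : ℝ) (a : WA d k) : S k hμ t (S k hμ (-t) a) = a := by
  ext n
  rw [coef_S, coef_S, coef_S, al_neg, be_neg, neg_neg, map_add, map_mul, map_mul,
    Complex.conj_conj]
  have h1 := al_mul_conj hμ t n
  have h2 := al_be_comm μ t n
  linear_combination (coef a n) * h1 + (conj (coef a (-n))) * h2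

lemma hasDerivAt_al {μ : ℝ} (hμ : 0 ≤ μ) (t : ℝ) {n : Lat d} (hn : n ≠ 0) :
    HasDerivAt (fun t => al μ t n)
      (-Complex.I * ((sqNorm n + μ) * al μ t n + μ * conj (be μ t n))) t := by
  have h1 : (Om μ n : ℂ) ≠ 0 := by
    have := one_le_Om hμ hn
    exact_mod_cast (by linarith : (0:ℝ) < Om μ n).ne'
  have h1' : Om μ n ≠ 0 := by exact_mod_cast h1
  have h2 : ((Om μ n : ℂ)) ^ 2 = sqNorm n * (sqNorm n + 2 * μ) := by
    exact_mod_cast Om_sq hμ n
  have hc : HasDerivAt (fun t : ℝ => Real.cos (Om μ n * t)) (-Real.sin (Om μ n * t) * Om μ n) t := by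
    simpa using ((hasDerivAt_id' t).const_mul (Om μ n)).cos
  have hs : HasDerivAt (fun t : ℝ => Real.sin (Om μ n * t)) (Real.cos (Om μ n * t) * Om μ n) t := by
    simpa using ((hasDerivAt_id' t).const_mul (Om μ n)).sin
  have h3 := hc.ofReal_comp.sub
    (((hs.const_mul (sqNorm n + μ)).div_const (Om μ n)).ofReal_comp.const_mul Complex.I)
  refine h3.congr_deriv ?_
  unfold al be
  simp only [map_mul, map_neg, Complex.conj_I, Complex.conj_ofReal, neg_neg]
  push_cast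
  have := Complex.I_sq
  field_simp
  linear_combination (-(Complex.sin (Om μ n * t)) * ((sqNorm n + μ) ^ 2 - μ ^ 2)) * this -
    Complex.sin (Om μ n * t) * h2

lemma hasDerivAt_be {μ : ℝ} (hμ : 0 ≤ μ) (t : ℝ) {n : Lat d} (hn : n ≠ 0) :
    HasDerivAt (fun t => be μ t n)
      (-Complex.I * ((sqNorm n + μ) * be μ t n + μ * conj (al μ t n))) t := by
  have h1 : (Om μ n : ℂ) ≠ 0 := by
    have := one_le_Om hμ hn
    exact_mod_cast (by linarith : (0:ℝ) < Om μ n).ne'
  have hs : HasDerivAt (fun t : ℝ => Real.sin (Om μ n * t)) (Real.cos (Om μ n * t) * Om μ n) t := by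
    simpa using ((hasDerivAt_id' t).const_mul (Om μ n)).sin
  have h3 := ((hs.const_mul μ).div_const (Om μ n)).ofReal_comp.const_mul (-Complex.I)
  refine h3.congr_deriv ?_
  unfold al be
  simp only [map_mul, map_sub, Complex.conj_I, Complex.conj_ofReal]
  push_cast
  field_simp
  ring

end Vale.Agent.P139.A
end
end

section

section

open Set Metric Filter Topology MeasureTheory
open scoped NNReal ENNReal ComplexConjugate

namespace Vale.Agent.P139.A

variable {d k : ℕ}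

namespace WA

noncomputable instance : NormedAlgebra ℝ (WA d k) := NormedAlgebra.complexToReal

/-- Complex conjugation on the Wiener algebra. -/
noncomputable def conjL : WA d k →L[ℝ] WA d k :=
  pairOp (fun _ => 0) (fun _ => 1) 1 (by simp) (by simp)

lemma coef_conjL (a : WA d k) (n : Lat d) : coef (conjL a) n = conj (coef a (-n)) := by
  unfold conjL
  rw [coef_pairOp]
  simp

lemma ev_conjL (a : WA d k) (x : Fin d → ℝ) : ev (conjL a) x = conj (ev a x) := by
  unfold ev series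
  rw [Complex.conj_tsum, ← (Equiv.neg (Lat d)).tsum_eq]
  refine tsum_congr fun n => ?_
  simp [coef_conjL, conj_expi]

/-- The nonlinearity `|a|^{2m} a`. -/
noncomputable def F (m : ℕ) (a : WA d k) : WA d k := a ^ (m + 1) * (conjL a) ^ m

lemma ev_pow (a : WA d k) (m : ℕ) (x : Fin d → ℝ) : ev (a ^ m) x = ev a x ^ m := by
  induction m with
  | zero => simp [ev_one]
  | succ m ih => rw [pow_succ, ev_mul, ih, pow_succ]

lemma ev_F (m : ℕ) (a : WA d k) (x : Fin d → ℝ) :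
    ev (F m a) x = (‖ev a x‖ : ℂ) ^ (2 * m) * ev a x := by
  unfold F
  rw [ev_mul, ev_pow, ev_pow, ev_conjL, pow_mul, ← Complex.conj_mul']
  ring

lemma F_smul (m : ℕ) (z : ℂ) (hz : ‖z‖ = 1) (a : WA d k) : F m (z • a) = z • F m a := by
  apply ev_injective
  intro x
  rw [ev_F, ev_smul, ev_smul, ev_F, norm_mul, hz, one_mul]
  ring

/-- Gauge rate `Re(<F(a)>/<a>)`. -/
noncomputable def g (m : ℕ) (a : WA d k) : ℝ := (coef (F m a) 0 / coef a 0).re

/-- The gauged nonlinearity. -/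
noncomputable def Nl (m : ℕ) (a : WA d k) : WA d k :=
  -(Complex.I • F m a) + (g m a) • (Complex.I • a)

/-- The linear part of the gauged nonlinearity. -/
noncomputable def Lin (μ : ℝ) : WA d k →L[ℝ] WA d k :=
  pairOp (fun n => if n = 0 then 0 else -Complex.I * μ) (fun n => if n = 0 then 0 else -Complex.I * μ)
    |μ| (fun n => by split_ifs <;> simp) (fun n => by split_ifs <;> simp)

lemma coef_Lin (μ : ℝ) (a : WA d k) (n : Lat d) :
    coef (Lin μ a) n = if n = 0 then 0 else -Complex.I * μ * (coef a n + conj (coef a (-n))) := by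
  unfold Lin
  rw [coef_pairOp]
  split_ifs <;> ring

/-- Multiplication by `i` as a real-linear map. -/
noncomputable def mulI : WA d k →L[ℝ] WA d k :=
  pairOp (fun _ => Complex.I) (fun _ => 0) 1 (by simp) (by simp)

lemma mulI_apply (a : WA d k) : mulI a = Complex.I • a := by
  ext n
  unfold mulI
  rw [coef_pairOp]
  simp

/-- Real-linear coefficient functional. -/
noncomputable def coefR (n : Lat d) : WA d k →L[ℝ] ℂ := (coefL n).restrictScalars ℝ

@[simp] lemma coefR_apply (n : Lat d) (a : WA d k) : coefR n a = coef a n := rfl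

lemma contDiff_F (m : ℕ) : ContDiff ℝ 2 (F m : WA d k → WA d k) := by
  unfold F
  exact (contDiff_id.pow _).mul ((conjL.contDiff).pow _)

lemma contDiffAt_g (m : ℕ) {a : WA d k} (ha : coef a 0 ≠ 0) : ContDiffAt ℝ 2 (g m) a := by
  have h1 : ContDiffAt ℝ 2 (fun a : WA d k => coefR 0 (F m a)) a :=
    ((coefR 0).contDiff.comp (contDiff_F m)).contDiffAt
  have h2 : ContDiffAt ℝ 2 (fun a : WA d k => coefR 0 a) a := (coefR 0).contDiff.contDiffAt
  have h3 := (Complex.reCLM.contDiff (n := 2)).contDiffAt.comp a (h1.mul (h2.inv ha))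
  exact h3

lemma contDiffAt_Nl (m : ℕ) {a : WA d k} (ha : coef a 0 ≠ 0) : ContDiffAt ℝ 2 (Nl m) a := by
  have h1 : ContDiffAt ℝ 2 (fun a : WA d k => -(mulI (F m a)) + (g m a) • (mulI a)) a :=
    ((mulI.contDiff.comp (contDiff_F m)).contDiffAt.neg).add
      ((contDiffAt_g m ha).smul (mulI.contDiff.contDiffAt))
  refine h1.congr_of_eventuallyEq (Eventually.of_forall fun b => ?_)
  simp only [Nl, mulI_apply]

/-- The constant function `c`. -/
noncomputable def cst (c : ℝ) : WA d k := (c : ℝ) • (1 : WA d k)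

lemma coef_cst (c : ℝ) (n : Lat d) : coef (cst c : WA d k) n = if n = 0 then (c : ℂ) else 0 := by
  unfold cst
  rw [coef_real_smul, coef_one]
  split_ifs <;> simp

lemma conjL_cst (c : ℝ) : conjL (cst c : WA d k) = cst c := by
  ext n
  rw [coef_conjL, coef_cst, coef_cst]
  by_cases h : n = 0
  · simp [h]
  · simp [h]

lemma cst_pow (c : ℝ) (m : ℕ) : (cst c : WA d k) ^ m = (c ^ m) • (1 : WA d k) := by
  unfold cst
  rw [smul_pow, one_pow]

lemma F_cst (m : ℕ) (c : ℝ) : F m (cst c : WA d k) = (c ^ (2 * m + 1)) • (1 : WA d k) := by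
  unfold F
  rw [conjL_cst, cst_pow, cst_pow, smul_mul_smul_comm, one_mul]
  congr 1
  ring

lemma g_cst (m : ℕ) {c : ℝ} (hc : c ≠ 0) : g m (cst c : WA d k) = c ^ (2 * m) := by
  unfold g
  rw [F_cst, coef_real_smul, coef_one, coef_cst]
  simp only [if_true, mul_one]
  rw [← Complex.ofReal_div, Complex.ofReal_re, pow_succ, mul_div_assoc, div_self hc, mul_one]

lemma Nl_cst (m : ℕ) {c : ℝ} (hc : c ≠ 0) : Nl m (cst c : WA d k) = 0 := by
  unfold Nl
  rw [F_cst, g_cst m hc]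
  unfold cst
  ext n
  simp only [coef_add, coef_neg, coef_smul, coef_real_smul, coef_zero]
  push_cast
  ring

/-- Derivative of the nonlinearity at a constant. -/
lemma hasFDerivAt_F {m : ℕ} (hm : 1 ≤ m) (c : ℝ) :
    HasFDerivAt (F m : WA d k → WA d k)
      (((m + 1 : ℝ) * c ^ (2 * m)) • ContinuousLinearMap.id ℝ (WA d k) +
        ((m : ℝ) * c ^ (2 * m)) • conjL) (cst c) := by
  have h1 : HasFDerivAt (fun a : WA d k => a ^ (m + 1)) _ (cst c) :=
    (hasFDerivAt_id (𝕜 := ℝ) (cst c : WA d k)).pow (m + 1)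
  have h2 : HasFDerivAt (fun a : WA d k => (conjL a) ^ m) _ (cst c) :=
    ((conjL (d := d) (k := k)).hasFDerivAt (x := cst c)).pow m
  have h3 := h1.mul h2
  refine h3.congr_fderiv ?_
  ext1 h
  obtain ⟨l, rfl⟩ : ∃ l, m = l + 1 := ⟨m - 1, by omega⟩
  simp only [id, Nat.add_sub_cancel, conjL_cst, cst_pow, add_apply,
    smul_apply, ContinuousLinearMap.id_apply, smul_eq_mul]
  simp only [smul_mul_assoc, one_mul, ← Nat.cast_smul_eq_nsmul ℝ]
  push_cast
  module

/-- Derivative of `Re(<F>/<a>)` at a constant. -/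
lemma hasFDerivAt_g {m : ℕ} (hm : 1 ≤ m) {c : ℝ} (hc : c ≠ 0) :
    HasFDerivAt (g m : WA d k → ℝ)
      ((2 * m * c ^ (2 * m) / c) • (Complex.reCLM.comp (coefR 0))) (cst c) := by
  have h1 : HasFDerivAt (fun a : WA d k => coefR 0 (F m a)) _ (cst c) :=
    ((coefR 0).hasFDerivAt (x := F m (cst c))).comp (cst c) (hasFDerivAt_F hm c)
  have h2 : HasFDerivAt (fun a : WA d k => coefR 0 a) _ (cst c) :=
    (coefR (d := d) (k := k) 0).hasFDerivAt (x := cst c)
  have hne : coefR 0 (cst c : WA d k) ≠ 0 := by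
    simp [coef_cst, hc]
  have hinv : HasFDerivAt (fun a : WA d k => (coefR 0 a)⁻¹) _ (cst c) :=
    HasFDerivAt.comp (cst c) ((hasFDerivAt_inv hne).restrictScalars ℝ) h2
  have h4 := Complex.reCLM.hasFDerivAt.comp (cst c) (h1.mul hinv)
  refine HasFDerivAt.congr_fderiv h4 ?_
  ext1 h
  simp only [ContinuousLinearMap.comp_apply, add_apply, smul_apply, ContinuousLinearMap.id_apply,
    ContinuousLinearMap.coe_restrictScalars', ContinuousLinearMap.toSpanSingleton_apply,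
    coefR_apply, F_cst, coef_add, coef_real_smul, coef_one, coef_cst, coef_conjL, neg_zero,
    if_true, Complex.reCLM_apply, smul_eq_mul]
  have hc' : (c : ℂ) ≠ 0 := by exact_mod_cast hc
  have key : ((c ^ (2 * m + 1) : ℝ) : ℂ) * 1 * (coef h 0 * -((c : ℂ) ^ 2)⁻¹) +
      ((c : ℂ))⁻¹ * ((((m : ℝ) + 1) * c ^ (2 * m) : ℝ) * coef h 0 +
        (((m : ℝ) * c ^ (2 * m) : ℝ) : ℂ) * conj (coef h 0)) =
      (((m : ℝ) * c ^ (2 * m) / c * (2 * (coef h 0).re) : ℝ) : ℂ) := by
    have h5 := Complex.add_conj (coef h 0)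
    push_cast at h5 ⊢
    rw [← h5]
    field_simp
    ring
  rw [key, Complex.ofReal_re]
  ring

/-- Derivative of the gauged nonlinearity at a constant. -/
lemma hasFDerivAt_Nl {m : ℕ} (hm : 1 ≤ m) {c : ℝ} (hc : c ≠ 0) :
    HasFDerivAt (Nl m : WA d k → WA d k) (Lin (m * c ^ (2 * m))) (cst c) := by
  have h1 : HasFDerivAt (fun a : WA d k => mulI (F m a)) _ (cst c) :=
    (mulI.hasFDerivAt (x := F m (cst c))).comp (cst c) (hasFDerivAt_F hm c)
  have h2 : HasFDerivAt (fun a : WA d k => (g m a) • (mulI a)) _ (cst c) :=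
    (hasFDerivAt_g hm hc).smul (mulI (d := d) (k := k)).hasFDerivAt
  have h3 := (h1.neg).add h2
  have h4 : (Nl m : WA d k → WA d k) = fun a => -(mulI (F m a)) + (g m a) • (mulI a) := by
    funext a
    simp only [Nl, mulI_apply]
  rw [h4]
  refine HasFDerivAt.congr_fderiv h3 ?_
  ext1 h
  ext n
  rw [coef_Lin]
  simp only [ContinuousLinearMap.comp_apply, add_apply, smul_apply, ContinuousLinearMap.id_apply,
    neg_apply, ContinuousLinearMap.smulRight_apply,
    coefR_apply, g_cst m hc, coef_add, coef_neg, coef_real_smul, coef_cst, coef_conjL,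
    mulI_apply, coef_smul, Complex.reCLM_apply, smul_eq_mul]
  have hc' : (c : ℂ) ≠ 0 := by exact_mod_cast hc
  by_cases hn : n = 0
  · subst hn
    have h5 := Complex.add_conj (coef h 0)
    simp only [if_true, neg_zero]
    push_cast at h5 ⊢
    field_simp
    linear_combination (-(m : ℂ) * Complex.I * (c : ℂ) ^ (2 * m)) * h5
  · simp only [hn, if_false]
    push_cast
    ring

/-- The remainder nonlinearity after subtracting the linear part. -/
noncomputable def N2 (m : ℕ) (c : ℝ) (h : WA d k) : WA d k :=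
  Nl m (cst c + h) - Lin (m * c ^ (2 * m)) h

lemma N2_zero (m : ℕ) {c : ℝ} (hc : c ≠ 0) : N2 m c (0 : WA d k) = 0 := by
  unfold N2
  rw [add_zero, Nl_cst m hc, map_zero, sub_zero]

lemma contDiffAt_N2 (m : ℕ) {c : ℝ} (hc : c ≠ 0) : ContDiffAt ℝ 2 (N2 m c : WA d k → WA d k) 0 := by
  have h1 : ContDiffAt ℝ 2 (fun h : WA d k => cst c + h) 0 := contDiffAt_const.add contDiffAt_id
  have h2 : ContDiffAt ℝ 2 (Nl m : WA d k → WA d k) (cst c + 0) := by
    apply contDiffAt_Nl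
    rw [add_zero, coef_cst]
    simp [hc]
  exact (h2.comp 0 h1).sub (Lin (d := d) (k := k) (m * c ^ (2 * m))).contDiff.contDiffAt

lemma fderiv_N2 {m : ℕ} (hm : 1 ≤ m) {c : ℝ} (hc : c ≠ 0) :
    fderiv ℝ (N2 m c : WA d k → WA d k) 0 = 0 := by
  have h1 : HasFDerivAt (fun h : WA d k => cst c + h) (ContinuousLinearMap.id ℝ (WA d k)) 0 :=
    (hasFDerivAt_id (𝕜 := ℝ) (0 : WA d k)).const_add (cst c)
  have h2 : HasFDerivAt (Nl m : WA d k → WA d k) (Lin (m * c ^ (2 * m))) (cst c + 0) := by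
    rw [add_zero]
    exact hasFDerivAt_Nl hm hc
  have h3 := (h2.comp 0 h1).sub ((Lin (d := d) (k := k) (m * c ^ (2 * m))).hasFDerivAt (x := 0))
  have h4 : HasFDerivAt (N2 m c : WA d k → WA d k) (0 : WA d k →L[ℝ] WA d k) 0 := by
    refine HasFDerivAt.congr_fderiv h3 ?_
    rw [ContinuousLinearMap.comp_id, sub_self]
  exact h4.fderiv

end WA

end Vale.Agent.P139.A
end
end

section

section

open Set Metric Filter Topology MeasureTheory
open scoped NNReal ENNReal ComplexConjugate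

namespace Vale.Agent.P139.A

open WA

variable {d k : ℕ}

/-- Coefficientwise derivative of `t ↦ S(t) y(t)`. -/
lemma hasDeriv_S {μ : ℝ} (hμ : 0 ≤ μ) {s : Set ℝ} {t : ℝ} {y : ℝ → WA d k} {y' : WA d k}
    (hy : HasDerivWithinAt y y' s t) (n : Lat d) :
    HasDerivWithinAt (fun t => coef (S k hμ t (y t)) n)
      ((if n = 0 then 0 else -Complex.I * ((sqNorm n + μ) * coef (S k hμ t (y t)) n +
        μ * conj (coef (S k hμ t (y t)) (-n)))) + coef (S k hμ t y') n) s t := by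
  simp_rw [coef_S]
  have h1 : HasDerivWithinAt (fun t => coef (y t) n) (coef y' n) s t :=
    (coefR n).hasFDerivAt.comp_hasDerivWithinAt t hy
  have h2 : HasDerivWithinAt (fun t => conj (coef (y t) (-n))) (conj (coef y' (-n))) s t :=
    (Complex.conjCLE.toContinuousLinearMap).hasFDerivAt.comp_hasDerivWithinAt t
      ((coefR (-n)).hasFDerivAt.comp_hasDerivWithinAt t hy)
  by_cases hn : n = 0
  · subst hn
    have ha : ∀ t, al μ t (0 : Lat d) = 1 := by intro t; simp [al, Om_zero]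
    have hb : ∀ t, be μ t (0 : Lat d) = 0 := by intro t; simp [be, Om_zero]
    simp only [ha, hb, one_mul, zero_mul, add_zero, if_true, zero_add]
    exact h1
  · simp only [hn, if_false]
    have h3 := ((hasDerivAt_al hμ t hn).hasDerivWithinAt (s := s)).mul h1
    have h4 := ((hasDerivAt_be hμ t hn).hasDerivWithinAt (s := s)).mul h2
    refine (h3.add h4).congr_deriv ?_
    rw [neg_neg, al_neg, be_neg, map_add, map_mul, map_mul, Complex.conj_conj]
    ring

/-- Sobolev control by the Wiener norm. -/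
lemma weight_le (k : ℕ) (n : Lat d) : (1 + sqNorm n) ^ k ≤ (1 + d : ℝ) ^ k * (W k n) ^ 2 := by
  have h1 : sqNorm n ≤ d * ‖n‖ ^ 2 := by
    unfold sqNorm
    calc ∑ j, (n j : ℝ) ^ 2 ≤ ∑ j : Fin d, ‖n‖ ^ 2 := by
          refine Finset.sum_le_sum fun j _ => ?_
          have := norm_le_pi_norm n j
          rw [← sq_abs]
          have h2 : |(n j : ℝ)| = ‖n j‖ := by
            rw [Int.norm_eq_abs]
          rw [h2]
          gcongr
      _ = d * ‖n‖ ^ 2 := by simp
  have h2 : 1 + sqNorm n ≤ (1 + d) * (1 + ‖n‖) ^ 2 := by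
    have := norm_nonneg n
    have hd : (0 : ℝ) ≤ d := Nat.cast_nonneg d
    nlinarith [mul_nonneg hd this, mul_nonneg hd (sq_nonneg ‖n‖)]
  have h3 : 0 ≤ 1 + sqNorm n := by have := sqNorm_nonneg n; linarith
  calc (1 + sqNorm n) ^ k ≤ ((1 + d) * (1 + ‖n‖) ^ 2) ^ k := by gcongr
    _ = (1 + d : ℝ) ^ k * (W k n) ^ 2 := by
      unfold W
      rw [mul_pow, ← pow_mul, ← pow_mul, mul_comm 2 k]

lemma sob_term_le (a : WA d k) (n : Lat d) :
    (1 + sqNorm n) ^ k * ‖coef a n‖ ^ 2 ≤ ((1 + d : ℝ) ^ k * ‖a‖) * (W k n * ‖coef a n‖) := by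
  calc (1 + sqNorm n) ^ k * ‖coef a n‖ ^ 2 ≤ ((1 + d : ℝ) ^ k * (W k n) ^ 2) * ‖coef a n‖ ^ 2 := by
        gcongr
        exact weight_le k n
    _ = (1 + d : ℝ) ^ k * (W k n * ‖coef a n‖) * (W k n * ‖coef a n‖) := by ring
    _ ≤ ((1 + d : ℝ) ^ k * ‖a‖) * (W k n * ‖coef a n‖) := by
        have h1 := norm_coef_le a n
        have h2 : 0 ≤ W k n * ‖coef a n‖ := mul_nonneg (W_pos n).le (norm_nonneg _)
        gcongr

lemma memSobolev (a : WA d k) : MemSobolev k (coef a) := by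
  unfold MemSobolev
  refine Summable.of_nonneg_of_le (fun n => ?_) (fun n => sob_term_le a n) (a.summable.mul_left _)
  have := sqNorm_nonneg n
  positivity

lemma sobolevSq_le (a : WA d k) : sobolevSq k (coef a) ≤ (1 + d : ℝ) ^ k * ‖a‖ ^ 2 := by
  unfold sobolevSq
  have h := (memSobolev a).tsum_le_tsum (fun n => sob_term_le a n) (a.summable.mul_left _)
  refine h.trans (le_of_eq ?_)
  rw [tsum_mul_left, ← norm_eq]
  ring

lemma sobolevSq_nonneg (a : Lat d → ℂ) : 0 ≤ sobolevSq k a := by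
  unfold sobolevSq
  refine tsum_nonneg fun n => ?_
  have := sqNorm_nonneg n
  positivity

/-- A curve in the Wiener algebra solving the equation coefficientwise is a solution in the
sense of `IsSolution`. -/
lemma isSolution_of {m : ℕ} {T : ℝ} {u : ℝ → WA d k} (hc : ContinuousOn u (Icc 0 T))
    (hu : ∀ t ∈ Icc 0 T, ∀ n, HasDerivWithinAt (fun t => coef (u t) n)
      (-Complex.I * (sqNorm n * coef (u t) n) - Complex.I * coef (F m (u t)) n) (Icc 0 T) t) :
    IsSolution d (2 * m + 1) k T (fun t => coef (u t)) where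
  mem t _ := memSobolev (u t)
  cont t ht := by
    have h1 : Tendsto (fun s => (1 + d : ℝ) ^ k * ‖u s - u t‖ ^ 2) (𝓝[Icc 0 T] t) (𝓝 0) := by
      have h2 := (hc t ht)
      rw [ContinuousWithinAt, tendsto_iff_norm_sub_tendsto_zero] at h2
      have h3 := (h2.pow 2).const_mul ((1 + d : ℝ) ^ k)
      simpa using h3
    refine squeeze_zero (fun s => sobolevSq_nonneg _) (fun s => ?_) h1
    have h4 := sobolevSq_le (u s - u t)
    refine le_trans (le_of_eq ?_) h4
    congr 1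
    funext n
    simp
  eqn t ht n := by
    refine ⟨_, hu t ht n, ?_⟩
    have h1 : (fun x => (‖series (coef (u t)) x‖ : ℂ) ^ (2 * m + 1 - 1) * series (coef (u t)) x) =
        series (coef (F m (u t))) := by
      funext x
      have := ev_F m (u t) x
      rw [Nat.add_sub_cancel]
      exact this.symm
    rw [h1, fourierCoef_series (F m (u t)).summable_norm]
    have := Complex.I_sq
    linear_combination (-(sqNorm n * coef (u t) n) - coef (F m (u t)) n) * this

lemma continuousOn_S {μ : ℝ} (hμ : 0 ≤ μ) {s : Set ℝ} {y : ℝ → WA d k} (hy : ContinuousOn y s) :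
    ContinuousOn (fun t => S k hμ t (y t)) s :=
  continuousOn_apply (X := WA d k) (S k hμ) (by linarith : 0 < 2 * (2 + μ)) (norm_S_le hμ)
    (continuous_S hμ) hy

/-- A gauged solution yields a solution. -/
lemma gauge {m : ℕ} {T : ℝ} (hT : 0 ≤ T) {v : ℝ → WA d k} (hc : ContinuousOn v (Icc 0 T))
    (hv : ∀ t ∈ Icc 0 T, ∀ n, HasDerivWithinAt (fun t => coef (v t) n)
      (-Complex.I * (sqNorm n * coef (v t) n) + coef (Nl m (v t)) n) (Icc 0 T) t)
    (h0 : ∀ t ∈ Icc 0 T, coef (v t) 0 ≠ 0) (z : ℂ) (hz : ‖z‖ = 1) :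
    ∃ u : ℝ → WA d k, u 0 = z • v 0 ∧ IsSolution d (2 * m + 1) k T (fun t => coef (u t)) ∧
      ∀ t ∈ Icc 0 T, ∃ w : ℂ, ‖w‖ = 1 ∧ u t = w • v t := by
  have hg : ContinuousOn (fun t => g m (v t)) (Icc 0 T) := fun t ht =>
    ((contDiffAt_g m (h0 t ht)).continuousAt).comp_continuousWithinAt (hc t ht)
  let G : ℝ → ℝ := IccExtend hT ((Icc 0 T).domRestrict fun t => g m (v t))
  have hG : Continuous G := hg.domRestrict.Icc_extend'
  have hGt : ∀ t ∈ Icc 0 T, G t = g m (v t) := fun t ht => by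
    simp only [G, IccExtend_of_mem hT _ ht, domRestrict_apply]
  let ψ : ℝ → ℝ := fun t => ∫ s in (0 : ℝ)..t, G s
  have hψ : ∀ t, HasDerivAt ψ (G t) t := fun t =>
    intervalIntegral.integral_hasDerivAt_right (hG.intervalIntegrable _ _)
      (hG.stronglyMeasurableAtFilter _ _) hG.continuousAt
  have hψ0 : ψ 0 = 0 := intervalIntegral.integral_same
  let w : ℝ → ℂ := fun t => z * Complex.exp (-(ψ t : ℂ) * Complex.I)
  have hw : ∀ t, ‖w t‖ = 1 := fun t => by
    simp only [w, norm_mul, hz, one_mul]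
    rw [← Complex.ofReal_neg, Complex.norm_exp_ofReal_mul_I]
  have hwd : ∀ t, HasDerivAt w (-(G t : ℂ) * Complex.I * w t) t := fun t => by
    have h1 : HasDerivAt (fun t => -(ψ t : ℂ) * Complex.I) (-(G t : ℂ) * Complex.I) t :=
      ((hψ t).ofReal_comp.neg).mul_const Complex.I
    have h2 := (h1.cexp).const_mul z
    refine h2.congr_deriv ?_
    simp only [w]
    ring
  refine ⟨fun t => w t • v t, ?_, isSolution_of ?_ ?_, fun t _ => ⟨w t, hw t, rfl⟩⟩
  · simp [w, hψ0]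
  · have hwc : Continuous w := continuous_iff_continuousAt.2 fun t => (hwd t).continuousAt
    exact hwc.continuousOn.smul hc
  · intro t ht n
    simp_rw [coef_smul]
    have h3 := ((hwd t).hasDerivWithinAt (s := Icc 0 T)).mul (hv t ht n)
    refine h3.congr_deriv ?_
    rw [F_smul m (w t) (hw t), coef_smul, hGt t ht]
    unfold Nl
    rw [coef_add, coef_neg, coef_real_smul, coef_smul, coef_smul]
    ring

/-- Long-time existence for data close to a nonzero constant. -/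
theorem long_time_near_constant {m : ℕ} (hm : 1 ≤ m) {z : ℂ} (hz : z ≠ 0) :
    ∃ c > 0, ∃ δ > 0, ∃ C > 0, ∀ a : WA d k, coef a 0 = z → ‖a - z • 1‖ ≤ δ → ∀ T : ℝ, 0 ≤ T →
      T * ‖a - z • 1‖ ≤ c → ∃ u : ℝ → WA d k, u 0 = a ∧
        IsSolution d (2 * m + 1) k T (fun t => coef (u t)) ∧
        ∀ t ∈ Icc 0 T, ∃ w : ℂ, ‖w‖ = 1 ∧ ‖u t - w • (z • (1 : WA d k))‖ ≤ C * ‖a - z • 1‖ := by
  set r : ℝ := ‖z‖ with hr
  have hr0 : r ≠ 0 := by simpa [hr] using hz
  set μ : ℝ := m * r ^ (2 * m) with hμdef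
  have hμ : 0 ≤ μ := by positivity
  have hM : 1 ≤ 2 * (2 + μ) := by linarith
  have hU : {h : WA d k | coef (cst r + h) 0 ≠ 0} ∈ 𝓝 (0 : WA d k) := by
    have h1 : Continuous fun h : WA d k => coefR 0 (cst r + h) := by fun_prop
    refine (isOpen_ne.preimage h1).mem_nhds ?_
    simp [coef_cst, hr0]
  obtain ⟨c, hc, δ, hδ, H⟩ := long_time (S k hμ) hM (norm_S_le hμ) (continuous_S hμ)
    (contDiffAt_N2 m hr0) (N2_zero m hr0) (fderiv_N2 hm hr0) hU
  refine ⟨c, hc, δ, hδ, 2 * (2 + μ) * 2, by positivity, fun a ha haδ T hT hTc => ?_⟩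
  -- normalise the phase
  set ζ : ℂ := z / r with hζ
  have hrC : (r : ℂ) ≠ 0 := by exact_mod_cast hr0
  have hζn : ‖ζ‖ = 1 := by
    rw [hζ, norm_div, Complex.norm_real, Real.norm_of_nonneg (norm_nonneg z), ← hr, div_self hr0]
  have hζ0 : ζ ≠ 0 := by
    intro h; rw [h] at hζn; simp at hζn
  have hζr : ζ * r = z := by rw [hζ]; field_simp
  set x₀ : WA d k := ζ⁻¹ • (a - z • 1) with hx₀
  have hx₀n : ‖x₀‖ = ‖a - z • (1 : WA d k)‖ := by
    rw [hx₀, norm_smul, norm_inv, hζn, inv_one, one_mul]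
  obtain ⟨y, hy0, hy⟩ := H x₀ (by rw [hx₀n]; exact haδ) T hT (by rw [hx₀n]; exact hTc)
  set h : ℝ → WA d k := fun t => S k hμ t (y t) with hh
  set v : ℝ → WA d k := fun t => cst r + h t with hv
  have hyc : ContinuousOn y (Icc 0 T) := fun t ht => (hy t ht).1.continuousWithinAt
  have hhc : ContinuousOn h (Icc 0 T) := continuousOn_S hμ hyc
  have hvc : ContinuousOn v (Icc 0 T) := continuousOn_const.add hhc
  have hvd : ∀ t ∈ Icc 0 T, ∀ n, HasDerivWithinAt (fun t => coef (v t) n)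
      (-Complex.I * (sqNorm n * coef (v t) n) + coef (Nl m (v t)) n) (Icc 0 T) t := by
    intro t ht n
    have h1 := hasDeriv_S hμ (hy t ht).1 n
    rw [S_S_neg] at h1
    have hfun : (fun t => coef (v t) n) =
        fun t => coef (cst r : WA d k) n + coef (S k hμ t (y t)) n := by
      funext t
      simp only [hv, hh, coef_add]
    rw [hfun]
    refine (h1.const_add _).congr_deriv ?_
    unfold N2
    rw [coef_sub, coef_Lin]
    simp only [hv, coef_add, coef_cst, ← hμdef]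
    by_cases hn : n = 0
    · subst hn
      simp [sqNorm_zero, hh]
    · simp only [hn, if_false, zero_add]
      simp only [hh]
      ring
  have hv0 : ζ • v 0 = a := by
    have hS0 : S k hμ 0 x₀ = x₀ := by
      ext n
      rw [coef_S]
      simp [al, be]
    simp only [hv, hh, hy0, hS0]
    rw [hx₀, smul_add, smul_inv_smul₀ hζ0]
    ext n
    simp only [coef_add, coef_sub, coef_smul, coef_cst, coef_one]
    split_ifs
    · rw [hζr]; ring
    · ring
  obtain ⟨u, hu0, hu, hw⟩ := gauge hT hvc hvd (fun t ht => (hy t ht).2.2) ζ hζn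
  refine ⟨u, by rw [hu0, hv0], hu, fun t ht => ?_⟩
  obtain ⟨w, hw1, hw2⟩ := hw t ht
  refine ⟨w / ζ, by rw [norm_div, hw1, hζn, div_one], ?_⟩
  have h5 : u t - (w / ζ) • (z • (1 : WA d k)) = w • h t := by
    rw [hw2]
    ext n
    simp only [hv, coef_add, coef_sub, coef_smul, coef_cst, coef_one]
    split_ifs
    · rw [← hζr]; field_simp; ring
    · ring
  rw [h5, norm_smul, hw1, one_mul, ← hx₀n]
  calc ‖h t‖ ≤ ‖S k hμ t‖ * ‖y t‖ := (S k hμ t).le_opNorm _
    _ ≤ (2 * (2 + μ)) * (2 * ‖x₀‖) := by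
        gcongr
        exacts [norm_S_le hμ t, (hy t ht).2.1]
    _ = 2 * (2 + μ) * 2 * ‖x₀‖ := by ring

end Vale.Agent.P139.A
end
end

section

section

open Set Metric Filter Topology MeasureTheory ProbabilityTheory
open scoped NNReal ENNReal ComplexConjugate

namespace Vale.Agent.P139.A

lemma summable_prod_fin {d : ℕ} {f : ℤ → ℝ} (hf0 : ∀ m, 0 ≤ f m) (hf : Summable f) :
    Summable fun n : Fin d → ℤ => ∏ j, f (n j) := by
  classical
  refine summable_of_sum_le (c := (∑' m, f m) ^ d) (fun n => Finset.prod_nonneg fun j _ => hf0 _)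
    (fun s => ?_)
  let t : Fin d → Finset ℤ := fun j => s.image fun n => n j
  have hst : s ⊆ Fintype.piFinset t := by
    intro n hn
    rw [Fintype.mem_piFinset]
    intro j
    exact Finset.mem_image_of_mem _ hn
  calc ∑ n ∈ s, ∏ j, f (n j) ≤ ∑ n ∈ Fintype.piFinset t, ∏ j, f (n j) :=
        Finset.sum_le_sum_of_subset_of_nonneg hst fun n _ _ => Finset.prod_nonneg fun j _ => hf0 _
    _ = ∏ j, ∑ m ∈ t j, f m := (Finset.prod_univ_sum t fun _ m => f m).symm
    _ ≤ ∏ j : Fin d, ∑' m, f m := by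
        refine Finset.prod_le_prod (fun j _ => Finset.sum_nonneg fun m _ => hf0 m) (fun j _ => ?_)
        exact hf.sum_le_tsum _ fun m _ => hf0 m
    _ = (∑' m, f m) ^ d := by simp

lemma summable_inv_one_add : Summable fun m : ℤ => ((1 + ‖m‖) ^ 2)⁻¹ := by
  have h1 : Summable fun m : ℤ => 1 / (m : ℝ) ^ 2 := Real.summable_one_div_int_pow.2 (by norm_num)
  have h2 : Summable fun m : ℤ => if m = 0 then (1 : ℝ) else 0 := (hasSum_ite_eq 0 1).summable
  refine Summable.of_nonneg_of_le (fun m => by positivity) (fun m => ?_) (h1.add h2)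
  by_cases hm : m = 0
  · subst hm; simp
  · simp only [hm, if_false, add_zero]
    rw [one_div]
    have h3 : 0 < |(m : ℝ)| := by
      rw [abs_pos]; exact_mod_cast hm
    have h4 : ‖m‖ = |(m : ℝ)| := Int.norm_eq_abs m
    rw [h4, ← sq_abs (m : ℝ)]
    gcongr
    linarith

lemma summable_W_inv (d : ℕ) : Summable fun n : Lat d => (W (2 * d) n)⁻¹ := by
  refine Summable.of_nonneg_of_le (fun n => (inv_pos.2 (W_pos n)).le) (fun n => ?_)
    (summable_prod_fin (d := d) (f := fun m => ((1 + ‖m‖) ^ 2)⁻¹) (fun m => by positivity)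
      summable_inv_one_add)
  unfold W
  rw [Finset.prod_inv_distrib]
  apply inv_anti₀
  · exact Finset.prod_pos fun j _ => by positivity
  · calc ∏ j, (1 + ‖n j‖) ^ 2 ≤ ∏ j : Fin d, (1 + ‖n‖) ^ 2 := by
          refine Finset.prod_le_prod (fun j _ => by positivity) (fun j _ => ?_)
          have := norm_le_pi_norm n j
          gcongr
      _ = (1 + ‖n‖) ^ (2 * d) := by simp [← pow_mul]

lemma measurable_mkC : Measurable fun z : ℝ × ℝ => (⟨z.1, z.2⟩ : ℂ) :=
  Complex.measurableEquivRealProd.symm.measurable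

lemma std_zero : stdComplexGaussian {0} = 0 := by
  unfold stdComplexGaussian
  rw [Measure.map_apply measurable_mkC (measurableSet_singleton _)]
  have h1 : (fun z : ℝ × ℝ => (⟨z.1, z.2⟩ : ℂ)) ⁻¹' {0} ⊆ {0} ×ˢ univ := by
    rintro ⟨x, y⟩ h
    simp only [mem_preimage, mem_singleton_iff, Complex.ext_iff] at h
    simp [h.1]
  refine measure_mono_null h1 ?_
  rw [Measure.prod_prod]
  have : NullSingletonClass (gaussianReal 0 (1 / 2)) :=
    nullSingletonClass_gaussianReal (by norm_num)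
  rw [measure_singleton, zero_mul]

lemma std_moment : ∫⁻ z, ‖z‖ₑ ∂stdComplexGaussian < ∞ := by
  unfold stdComplexGaussian
  rw [lintegral_map (by fun_prop) measurable_mkC]
  have h1 : Integrable (fun x : ℝ => x) (gaussianReal 0 (1 / 2)) :=
    (memLp_id_gaussianReal 1).integrable le_rfl
  have h2 : Integrable (fun z : ℝ × ℝ => z.1)
      ((gaussianReal 0 (1 / 2)).prod (gaussianReal 0 (1 / 2))) := h1.comp_fst _
  have h3 : Integrable (fun z : ℝ × ℝ => z.2)
      ((gaussianReal 0 (1 / 2)).prod (gaussianReal 0 (1 / 2))) := h1.comp_snd _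
  refine lt_of_le_of_lt (lintegral_mono (g := fun z : ℝ × ℝ => ‖z.1‖ₑ + ‖z.2‖ₑ) fun z => ?_) ?_
  · have : ‖(⟨z.1, z.2⟩ : ℂ)‖ ≤ ‖z.1‖ + ‖z.2‖ := by
      have := Complex.norm_le_abs_re_add_abs_im (⟨z.1, z.2⟩ : ℂ)
      simpa using this
    show ‖(⟨z.1, z.2⟩ : ℂ)‖ₑ ≤ ‖z.1‖ₑ + ‖z.2‖ₑ
    rw [← ofReal_norm, ← ofReal_norm, ← ofReal_norm, ← ENNReal.ofReal_add (norm_nonneg _) (norm_nonneg _)]
    exact ENNReal.ofReal_le_ofReal this
  · rw [lintegral_add_left (by fun_prop)]
    exact ENNReal.add_lt_top.2 ⟨h2.2, h3.2⟩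

variable {d : ℕ} {Ω : Type*} [MeasurableSpace Ω] {P : Measure Ω}

lemma ae_ne_zero {g : Lat d → Ω → ℂ} (hm : ∀ n, Measurable (g n))
    (hg : ∀ n, P.map (g n) = stdComplexGaussian) : ∀ᵐ ω ∂P, g 0 ω ≠ 0 := by
  have h1 : P (g 0 ⁻¹' {0}) = 0 := by
    rw [← Measure.map_apply (hm 0) (measurableSet_singleton _), hg, std_zero]
  exact measure_eq_zero_iff_ae_notMem.1 h1

lemma ae_summable {g : Lat d → Ω → ℂ} (hm : ∀ n, Measurable (g n))
    (hg : ∀ n, P.map (g n) = stdComplexGaussian) :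
    ∀ᵐ ω ∂P, Summable fun n => ‖g n ω‖ * (W (2 * d) n)⁻¹ := by
  have hmeas : ∀ n, Measurable fun ω => ‖g n ω‖ₑ * ENNReal.ofReal (W (2 * d) n)⁻¹ := fun n => by
    have := hm n
    fun_prop
  have h1 : ∫⁻ ω, ∑' n, ‖g n ω‖ₑ * ENNReal.ofReal (W (2 * d) n)⁻¹ ∂P ≠ ∞ := by
    rw [lintegral_tsum fun n => (hmeas n).aemeasurable]
    have h2 : ∀ n, ∫⁻ ω, ‖g n ω‖ₑ * ENNReal.ofReal (W (2 * d) n)⁻¹ ∂P =
        (∫⁻ z, ‖z‖ₑ ∂stdComplexGaussian) * ENNReal.ofReal (W (2 * d) n)⁻¹ := by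
      intro n
      rw [lintegral_mul_const _ (by have := hm n; fun_prop), ← hg n,
        lintegral_map (by fun_prop) (hm n)]
    simp_rw [h2]
    rw [ENNReal.tsum_mul_left]
    refine ENNReal.mul_ne_top std_moment.ne ?_
    exact (summable_W_inv d).tsum_ofReal_ne_top
  have h3 := ae_lt_top (Measurable.tsum hmeas) h1
  filter_upwards [h3] with ω hω
  have h4 : ∑' n, ENNReal.ofReal (‖g n ω‖ * (W (2 * d) n)⁻¹) ≠ ∞ := by
    refine ne_of_eq_of_ne (tsum_congr fun n => ?_) hω.ne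
    rw [ENNReal.ofReal_mul (norm_nonneg _), ofReal_norm]
  exact (ENNReal.summable_toReal h4).congr fun n => by
    rw [ENNReal.toReal_ofReal (mul_nonneg (norm_nonneg _) (inv_pos.2 (W_pos n)).le)]

end Vale.Agent.P139.A
end
end

section

section

open Set Metric Filter Topology MeasureTheory ProbabilityTheory
open scoped NNReal ENNReal ComplexConjugate

namespace Vale.Agent.P139.A

open WA

variable {d k : ℕ}

lemma sup_sq_le (n : Lat d) : ‖n‖ ^ 2 ≤ sqNorm n := by
  have h1 : ‖n‖ ≤ Real.sqrt (sqNorm n) := by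
    rw [pi_norm_le_iff_of_nonneg (Real.sqrt_nonneg _)]
    intro j
    apply Real.le_sqrt_of_sq_le
    have h2 : ‖n j‖ = |(n j : ℝ)| := Int.norm_eq_abs _
    rw [h2, sq_abs]
    exact Finset.single_le_sum (f := fun j => ((n j : ℝ)) ^ 2) (fun _ _ => sq_nonneg _)
      (Finset.mem_univ j)
  calc ‖n‖ ^ 2 ≤ Real.sqrt (sqNorm n) ^ 2 := by gcongr
    _ = sqNorm n := Real.sq_sqrt (sqNorm_nonneg n)

lemma weight_datum_le {α : ℝ} (hα : (k + 2 * d : ℕ) ≤ α) {n : Lat d} (hn : n ≠ 0) :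
    W k n * Real.sqrt (1 + sqNorm n) ^ (-α) ≤
      (2 : ℝ) ^ (k + 2 * d) * (2 : ℝ) ^ (-α / 2) * (W (2 * d) n)⁻¹ := by
  set β : ℕ := k + 2 * d with hβ
  set J := Real.sqrt (1 + sqNorm n) with hJ
  have h1 : 1 ≤ sqNorm n := one_le_sqNorm hn
  have hs2 : (0 : ℝ) < Real.sqrt 2 := by positivity
  have hJ2 : Real.sqrt 2 ≤ J := Real.sqrt_le_sqrt (by linarith)
  have hJ0 : 0 < J := by linarith
  have hn0 : 0 ≤ ‖n‖ := norm_nonneg n
  have hsup : ‖n‖ ^ 2 ≤ sqNorm n := sup_sq_le n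
  have hJ3 : (1 + ‖n‖) / Real.sqrt 2 ≤ J := by
    rw [div_le_iff₀ hs2, hJ, ← Real.sqrt_mul (by linarith)]
    apply Real.le_sqrt_of_sq_le
    nlinarith [sq_nonneg (1 - ‖n‖)]
  have e1 : J ^ (-α) = J ^ (-(α - β)) * J ^ (-(β : ℝ)) := by
    rw [← Real.rpow_add hJ0]
    congr 1
    ring
  have e2 : J ^ (-(α - β)) ≤ Real.sqrt 2 ^ (-(α - β)) := by
    apply Real.rpow_le_rpow_of_nonpos hs2 hJ2
    linarith
  have e3 : J ^ (-(β : ℝ)) ≤ ((1 + ‖n‖) / Real.sqrt 2) ^ (-(β : ℝ)) := by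
    apply Real.rpow_le_rpow_of_nonpos (by positivity) hJ3
    have : (0 : ℝ) ≤ β := Nat.cast_nonneg _
    linarith
  have e4 : ((1 + ‖n‖) / Real.sqrt 2) ^ (-(β : ℝ)) = Real.sqrt 2 ^ β * ((1 + ‖n‖) ^ β)⁻¹ := by
    rw [Real.rpow_neg (by positivity), Real.rpow_natCast, div_pow, inv_div]
    rfl
  have e5 : Real.sqrt 2 ^ (-(α - β)) = Real.sqrt 2 ^ β * (2 : ℝ) ^ (-α / 2) := by
    have : -(α - β) = (β : ℝ) + (-α) := by ring
    rw [this, Real.rpow_add hs2, Real.rpow_natCast]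
    congr 1
    rw [Real.sqrt_eq_rpow, ← Real.rpow_mul (by norm_num)]
    congr 1
    ring
  have e6 : Real.sqrt 2 ^ β * Real.sqrt 2 ^ β = (2 : ℝ) ^ β := by
    rw [← mul_pow, Real.mul_self_sqrt (by norm_num)]
  have e7 : W k n * ((1 + ‖n‖) ^ β)⁻¹ = (W (2 * d) n)⁻¹ := by
    unfold W
    rw [hβ, pow_add]
    have : (1 + ‖n‖) ^ k ≠ 0 := by positivity
    field_simp
  calc W k n * J ^ (-α) = W k n * (J ^ (-(α - β)) * J ^ (-(β : ℝ))) := by rw [e1]
    _ ≤ W k n * ((Real.sqrt 2 ^ β * (2 : ℝ) ^ (-α / 2)) * (Real.sqrt 2 ^ β * ((1 + ‖n‖) ^ β)⁻¹)) := by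
        rw [← e5, ← e4]
        have := (W_pos (k := k) n).le
        gcongr
    _ = (Real.sqrt 2 ^ β * Real.sqrt 2 ^ β) * (2 : ℝ) ^ (-α / 2) * (W k n * ((1 + ‖n‖) ^ β)⁻¹) := by
        ring
    _ = _ := by rw [e6, e7]

/-- Deterministic consequence: exponential lower bound of the lifespan. -/
theorem lifespan_lower {m : ℕ} (hm : 1 ≤ m) (k : ℕ) {γ : Lat d → ℂ} (h0 : γ 0 ≠ 0)
    (hs : Summable fun n => ‖γ n‖ * (W (2 * d) n)⁻¹) :
    ∃ c : ℝ, 0 < c ∧ ∃ α₁ : ℝ, ∀ α ≥ α₁, ∃ u : ℝ → Lat d → ℂ,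
      u 0 = (fun n => γ n * ((Real.sqrt (1 + sqNorm n) ^ (-α) : ℝ) : ℂ)) ∧
      IsSolution d (2 * m + 1) k (c * (2 : ℝ) ^ (α / 2)) u := by
  obtain ⟨c, hc, δ, hδ, C, hC, H⟩ := long_time_near_constant (d := d) (k := k) hm h0
  set A : ℝ := (2 : ℝ) ^ (k + 2 * d) * ∑' n, ‖γ n‖ * (W (2 * d) n)⁻¹ with hA
  have hterm : ∀ n, 0 ≤ ‖γ n‖ * (W (2 * d) n)⁻¹ := fun n =>
    mul_nonneg (norm_nonneg _) (inv_pos.2 (W_pos n)).le
  have hA0 : 0 ≤ A := mul_nonneg (by positivity) (tsum_nonneg hterm)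
  have hlim : Tendsto (fun α : ℝ => A * (2 : ℝ) ^ (-α / 2)) atTop (𝓝 0) := by
    have h1 : Tendsto (fun α : ℝ => -α / 2) atTop atBot := by
      apply Tendsto.atBot_div_const (by norm_num)
      exact tendsto_neg_atTop_atBot
    have h2 := (tendsto_rpow_atBot_of_base_gt_one 2 (by norm_num)).comp h1
    simpa using h2.const_mul A
  obtain ⟨α₂, hα₂⟩ := (hlim.eventually (gt_mem_nhds hδ)).exists_forall_of_atTop
  refine ⟨c / (A + 1), by positivity, max α₂ ((k + 2 * d : ℕ) : ℝ), fun α hα => ?_⟩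
  have hα2 : α₂ ≤ α := (le_max_left _ _).trans hα
  have hαk : ((k + 2 * d : ℕ) : ℝ) ≤ α := (le_max_right _ _).trans hα
  set a₀ : Lat d → ℂ := fun n => γ n * ((Real.sqrt (1 + sqNorm n) ^ (-α) : ℝ) : ℂ) with ha₀
  have hnorm : ∀ n, ‖a₀ n‖ = ‖γ n‖ * Real.sqrt (1 + sqNorm n) ^ (-α) := fun n => by
    simp only [ha₀, norm_mul, Complex.norm_real]
    rw [Real.norm_of_nonneg (Real.rpow_nonneg (Real.sqrt_nonneg _) _)]
  have hbound : ∀ n, n ≠ 0 → W k n * ‖a₀ n‖ ≤
      (2 : ℝ) ^ (k + 2 * d) * (2 : ℝ) ^ (-α / 2) * (‖γ n‖ * (W (2 * d) n)⁻¹) := by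
    intro n hn
    rw [hnorm]
    calc W k n * (‖γ n‖ * Real.sqrt (1 + sqNorm n) ^ (-α))
        = ‖γ n‖ * (W k n * Real.sqrt (1 + sqNorm n) ^ (-α)) := by ring
      _ ≤ ‖γ n‖ * ((2 : ℝ) ^ (k + 2 * d) * (2 : ℝ) ^ (-α / 2) * (W (2 * d) n)⁻¹) := by
          exact mul_le_mul_of_nonneg_left (weight_datum_le hαk hn) (norm_nonneg _)
      _ = _ := by ring
  have hz0 : a₀ 0 = γ 0 := by simp [ha₀, sqNorm_zero]
  -- the perturbation
  have hsum1 : Summable fun n => W k n * ‖(if n = 0 then 0 else a₀ n : ℂ)‖ := by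
    refine Summable.of_nonneg_of_le (fun n => mul_nonneg (W_pos n).le (norm_nonneg _)) (fun n => ?_)
      (hs.mul_left ((2 : ℝ) ^ (k + 2 * d) * (2 : ℝ) ^ (-α / 2)))
    by_cases hn : n = 0
    · simp only [hn, if_true, norm_zero, mul_zero]
      exact mul_nonneg (by positivity) (hterm 0)
    · simp only [hn, if_false]
      exact hbound n hn
  let b : WA d k := mk _ hsum1
  have hb : ∀ n, coef b n = if n = 0 then 0 else a₀ n := fun n => coef_mk _ hsum1 n
  have hbn : ‖b‖ ≤ A * (2 : ℝ) ^ (-α / 2) := by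
    rw [norm_eq]
    have h3 : ∀ n, W k n * ‖coef b n‖ ≤
        (2 : ℝ) ^ (k + 2 * d) * (2 : ℝ) ^ (-α / 2) * (‖γ n‖ * (W (2 * d) n)⁻¹) := by
      intro n
      rw [hb]
      by_cases hn : n = 0
      · simp only [hn, if_true, norm_zero, mul_zero]
        exact mul_nonneg (by positivity) (hterm 0)
      · simp only [hn, if_false]
        exact hbound n hn
    refine (b.summable.tsum_le_tsum h3 (hs.mul_left _)).trans (le_of_eq ?_)
    rw [tsum_mul_left, hA]
    ring
  let a : WA d k := γ 0 • 1 + b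
  have hab : a - γ 0 • 1 = b := by simp [a]
  have hcoef : coef a = a₀ := by
    funext n
    simp only [a, coef_add, coef_smul, coef_one, hb]
    by_cases hn : n = 0
    · subst hn; simp [hz0]
    · simp [hn]
  have ha0 : coef a 0 = γ 0 := by rw [hcoef, hz0]
  have hα₂' := hα₂ α hα2
  have hpow : (2 : ℝ) ^ (α / 2) * (2 : ℝ) ^ (-α / 2) = 1 := by
    rw [← Real.rpow_add (by norm_num)]
    have : α / 2 + -α / 2 = 0 := by ring
    rw [this, Real.rpow_zero]
  obtain ⟨u, hu0, hu, -⟩ := H a ha0 (by rw [hab]; exact hbn.trans hα₂'.le)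
    (c / (A + 1) * (2 : ℝ) ^ (α / 2)) (by positivity) (by
      rw [hab]
      calc c / (A + 1) * (2 : ℝ) ^ (α / 2) * ‖b‖
          ≤ c / (A + 1) * (2 : ℝ) ^ (α / 2) * (A * (2 : ℝ) ^ (-α / 2)) := by gcongr
        _ = c * (A / (A + 1)) * ((2 : ℝ) ^ (α / 2) * (2 : ℝ) ^ (-α / 2)) := by ring
        _ = c * (A / (A + 1)) := by rw [hpow, mul_one]
        _ ≤ c * 1 := by
            gcongr
            rw [div_le_one (by linarith)]
            linarith
        _ = c := mul_one c)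
  refine ⟨fun t => coef (u t), ?_, hu⟩
  simp only [hu0, hcoef]

/-- Almost surely the `H^k` lifespan of the Gaussian random datum is at least `c 2^{α/2}` for all
large `α`. -/
theorem main {Ω : Type*} [MeasurableSpace Ω] (P : Measure Ω) {p : ℕ} (hp : Odd p) (hp3 : 3 ≤ p)
    (k : ℕ) (g : Lat d → Ω → ℂ) (hm : ∀ n, Measurable (g n))
    (hg : ∀ n, P.map (g n) = stdComplexGaussian) :
    ∀ᵐ ω ∂P, ∃ c > 0, ∃ α₁ : ℝ, ∀ α ≥ α₁,
      ENNReal.ofReal (c * (2 : ℝ) ^ (α / 2)) ≤ lifespan d p k (datum g α ω) := by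
  obtain ⟨m, rfl⟩ := hp
  have hm1 : 1 ≤ m := by omega
  filter_upwards [ae_ne_zero hm hg, ae_summable hm hg] with ω h0 hs
  obtain ⟨c, hc, α₁, H⟩ := lifespan_lower hm1 k (γ := fun n => g n ω) h0 hs
  refine ⟨c, hc, α₁, fun α hα => ?_⟩
  obtain ⟨u, hu0, hu⟩ := H α hα
  unfold lifespan
  have hT : 0 ≤ c * (2 : ℝ) ^ (α / 2) := by positivity
  refine le_iSup₂_of_le (NNReal.mk _ hT) ⟨u, hu, hu0⟩ ?_
  rw [ENNReal.ofReal, Real.toNNReal_of_nonneg hT]

end Vale.Agent.P139.A
end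
end

section

section

open Set Metric Filter Topology
open scoped NNReal ComplexConjugate

set_option linter.unusedSectionVars false

namespace Vale.Agent.P139

/-- The properties of the weighted Wiener algebra that are used. -/
structure Model (d k : ℕ) (W : Type*) [NormedCommRing W] [NormedAlgebra ℂ W] [StarRing W] where
  coeff : (Fin d → ℤ) → W →L[ℂ] ℂ
  hasSum_norm : ∀ x : W, HasSum (fun n => A.W k n * ‖coeff n x‖) ‖x‖
  coeff_star : ∀ n x, coeff n (star x) = conj (coeff (-n) x)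
  coeff_const : ∀ n c, coeff n (algebraMap ℂ W c) = if n = 0 then c else 0
  U : ℝ → W →L[ℂ] W
  coeff_U : ∀ t n x, coeff n (U t x) = Complex.exp (-(Complex.I * A.sqNorm n * t)) * coeff n x
  continuous_U : ∀ x, Continuous (fun t => U t x)

theorem continuity_bootstrap {f g : ℝ → ℝ} {T A B : ℝ}
    (hf : ContinuousOn f (Icc 0 T)) (hg : ContinuousOn g (Icc 0 T))
    (step : ∀ t ∈ Icc 0 T, (∀ s ∈ Icc 0 t, f s ≤ A ∧ g s ≤ B) → f t < A ∧ g t < B)
    (h0 : f 0 < A ∧ g 0 < B) :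
    ∀ t ∈ Icc 0 T, f t < A ∧ g t < B := by
  by_contra hcon
  push Not at hcon
  obtain ⟨t0, ht0, hbad⟩ := hcon
  set h : ℝ → ℝ := fun t => max (f t - A) (g t - B) with hh
  have hhc : ContinuousOn h (Icc 0 T) :=
    ContinuousOn.sup (hf.sub continuousOn_const) (hg.sub continuousOn_const)
  have hlt : ∀ t, h t < 0 ↔ (f t < A ∧ g t < B) := by
    intro t
    simp only [hh, max_lt_iff, sub_neg]
  have hle : ∀ t, h t ≤ 0 ↔ (f t ≤ A ∧ g t ≤ B) := by
    intro t
    simp only [hh, max_le_iff, sub_nonpos]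
  set Z : Set ℝ := Icc 0 T ∩ h ⁻¹' (Ici 0) with hZ
  have hZc : IsClosed Z := hhc.preimage_isClosed_of_isClosed isClosed_Icc isClosed_Ici
  have hZcomp : IsCompact Z := isCompact_Icc.of_isClosed_subset hZc inter_subset_left
  have hZne : Z.Nonempty := by
    refine ⟨t0, ht0, ?_⟩
    show 0 ≤ h t0
    by_contra hneg
    push Not at hneg
    have := (hlt t0).1 hneg
    exact absurd (hbad this.1) (not_le.mpr this.2)
  obtain ⟨t1, ht1Z, ht1⟩ := hZcomp.exists_isLeast hZne
  have ht1I : t1 ∈ Icc 0 T := ht1Z.1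
  have hpos : 0 ≤ h t1 := ht1Z.2
  have hne : t1 ≠ 0 := by
    intro h1
    rw [h1] at hpos
    exact absurd hpos (not_le.mpr ((hlt 0).2 h0))
  have ht1pos : 0 < t1 := lt_of_le_of_ne ht1I.1 (Ne.symm hne)
  have hbefore : ∀ s ∈ Icc 0 t1, s < t1 → h s < 0 := by
    intro s hs hst
    by_contra hcon
    push Not at hcon
    have hsZ : s ∈ Z := ⟨⟨hs.1, hs.2.trans ht1I.2⟩, hcon⟩
    exact absurd (ht1 hsZ) (not_le.mpr hst)
  have hat : h t1 ≤ 0 := by
    have hcl : t1 ∈ closure (Ico 0 t1) := by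
      rw [closure_Ico ht1pos.ne]
      exact ⟨ht1pos.le, le_rfl⟩
    have hc2 : ContinuousWithinAt h (Ico 0 t1) t1 :=
      (hhc t1 ht1I).mono fun s hs => ⟨hs.1, hs.2.le.trans ht1I.2⟩
    have hmem : h t1 ∈ closure (h '' Ico 0 t1) := hc2.mem_closure_image hcl
    have hsub : h '' Ico 0 t1 ⊆ Iic 0 := by
      rintro _ ⟨s, hs, rfl⟩
      exact (hbefore s ⟨hs.1, hs.2.le⟩ hs.2).le
    exact closure_minimal hsub isClosed_Iic hmem
  have hall : ∀ s ∈ Icc 0 t1, f s ≤ A ∧ g s ≤ B := by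
    intro s hs
    rcases eq_or_lt_of_le hs.2 with h1 | h1
    · rw [h1]; exact (hle t1).1 hat
    · exact (hle s).1 (hbefore s hs h1).le
  have := step t1 ht1I hall
  exact absurd hpos (not_le.mpr ((hlt t1).2 this))

namespace Model

variable {d k : ℕ} {W : Type*} [NormedCommRing W] [NormedAlgebra ℂ W] [StarRing W]

section basic

variable (M : Model d k W)

theorem ext {x y : W} (h : ∀ n, M.coeff n x = M.coeff n y) : x = y := by
  have h1 : ‖x - y‖ = 0 := by
    have h2 := M.hasSum_norm (x - y)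
    have h3 : (fun n => A.W k n * ‖M.coeff n (x - y)‖) = fun _ => 0 := by
      funext n
      rw [map_sub, h n, sub_self, norm_zero, mul_zero]
    rw [h3] at h2
    exact h2.unique hasSum_zero
  exact sub_eq_zero.mp (norm_eq_zero.mp h1)

theorem wt_nonneg (n : Fin d → ℤ) : 0 ≤ A.W k n := (A.W_pos n).le

theorem one_le_wt (n : Fin d → ℤ) : 1 ≤ A.W k n := A.one_le_W n

theorem norm_U (t : ℝ) (x : W) : ‖M.U t x‖ = ‖x‖ := by
  have h1 := M.hasSum_norm (M.U t x)
  have h2 : (fun n => A.W k n * ‖M.coeff n (M.U t x)‖) = fun n => A.W k n * ‖M.coeff n x‖ := by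
    funext n
    rw [M.coeff_U, norm_mul]
    have : ‖Complex.exp (-(Complex.I * A.sqNorm n * t))‖ = 1 := by
      rw [Complex.norm_exp]
      simp
    rw [this, one_mul]
  rw [h2] at h1
  exact h1.unique (M.hasSum_norm x)

theorem sum_le (F : Finset (Fin d → ℤ)) (x : W) :
    ∑ n ∈ F, A.W k n * ‖M.coeff n x‖ ≤ ‖x‖ :=
  sum_le_hasSum F (fun n _ => mul_nonneg (wt_nonneg n) (norm_nonneg _)) (M.hasSum_norm x)

theorem coeff_norm_le (n : Fin d → ℤ) (x : W) : ‖M.coeff n x‖ ≤ ‖x‖ := by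
  have h := M.sum_le {n} x
  rw [Finset.sum_singleton] at h
  have h1 := one_le_wt (k := k) n
  nlinarith [norm_nonneg (M.coeff n x)]

theorem norm_le_of_sum_le {x : W} {C : ℝ}
    (h : ∀ F : Finset (Fin d → ℤ), ∑ n ∈ F, A.W k n * ‖M.coeff n x‖ ≤ C) : ‖x‖ ≤ C :=
  le_of_tendsto' (M.hasSum_norm x) h

/-- The oscillating part. -/
noncomputable def osc (x : W) : W := x - algebraMap ℂ W (M.coeff 0 x)

theorem coeff_osc_zero (x : W) : M.coeff 0 (M.osc x) = 0 := by
  unfold osc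
  rw [map_sub, M.coeff_const, if_pos rfl, sub_self]

theorem coeff_osc {n : Fin d → ℤ} (hn : n ≠ 0) (x : W) : M.coeff n (M.osc x) = M.coeff n x := by
  unfold osc
  rw [map_sub, M.coeff_const, if_neg hn, sub_zero]

theorem osc_add (x : W) : algebraMap ℂ W (M.coeff 0 x) + M.osc x = x := by
  unfold osc; abel

theorem coeff_zero_U (t : ℝ) (x : W) : M.coeff 0 (M.U t x) = M.coeff 0 x := by
  rw [M.coeff_U]
  simp only [A.sqNorm, Pi.zero_apply, Int.cast_zero, ne_eq, OfNat.ofNat_ne_zero, not_false_eq_true, zero_pow, Finset.sum_const_zero, Complex.ofReal_zero, mul_zero, zero_mul, neg_zero, Complex.exp_zero, one_mul]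

theorem osc_U (t : ℝ) (x : W) : M.osc (M.U t x) = M.U t (M.osc x) := by
  apply M.ext
  intro n
  by_cases hn : n = 0
  · subst hn
    rw [coeff_osc_zero, coeff_zero_U, coeff_osc_zero]
  · rw [M.coeff_osc hn, M.coeff_U, M.coeff_U, M.coeff_osc hn]

theorem continuous_osc : Continuous M.osc := by
  unfold osc
  have h1 : Continuous (fun c : ℂ => algebraMap ℂ W c) := continuous_algebraMap ℂ W
  exact continuous_id.sub (h1.comp (M.coeff 0).continuous)

end basic

theorem continuousOn_U (M : Model d k W) {z : ℝ → W} {s : Set ℝ} (hz : ContinuousOn z s) :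
    ContinuousOn (fun t => M.U t (z t)) s := by
  intro t0 ht0
  have h1 : Tendsto (fun t => M.U t (z t) - M.U t0 (z t0)) (𝓝[s] t0) (𝓝 0) := by
    have h2 : Tendsto (fun t => ‖z t - z t0‖ + ‖M.U t (z t0) - M.U t0 (z t0)‖) (𝓝[s] t0)
        (𝓝 0) := by
      have h3 : Tendsto (fun t => ‖z t - z t0‖) (𝓝[s] t0) (𝓝 0) := by
        have := (hz t0 ht0).sub (continuousWithinAt_const (b := z t0))
        have h4 := this.norm
        simpa only [ContinuousWithinAt, Pi.sub_apply, sub_self, norm_zero] using h4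
      have h5 : Tendsto (fun t => ‖M.U t (z t0) - M.U t0 (z t0)‖) (𝓝[s] t0) (𝓝 0) := by
        have h8 : Continuous (fun t => ‖M.U t (z t0) - M.U t0 (z t0)‖) :=
          ((M.continuous_U (z t0)).sub continuous_const).norm
        have h6 : Tendsto (fun t => ‖M.U t (z t0) - M.U t0 (z t0)‖) (𝓝 t0) (𝓝 0) := by
          have := h8.tendsto t0
          simpa only [sub_self, norm_zero] using this
        exact h6.mono_left nhdsWithin_le_nhds
      simpa only [add_zero] using h3.add h5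
    refine squeeze_zero_norm (fun t => ?_) h2
    have e : M.U t (z t) - M.U t0 (z t0)
        = M.U t (z t - z t0) + (M.U t (z t0) - M.U t0 (z t0)) := by
      rw [map_sub]; abel
    rw [e]
    refine (norm_add_le _ _).trans ?_
    rw [M.norm_U]
  have h7 := h1.add_const (M.U t0 (z t0))
  simpa only [ContinuousWithinAt, sub_add_cancel, zero_add] using h7

section flow

variable [NormOneClass W] [NormedStarGroup W] [StarModule ℂ W] (M : Model d k W)

theorem sum_neg_le (F : Finset (Fin d → ℤ)) (x : W) :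
    ∑ n ∈ F, A.W k n * ‖M.coeff (-n) x‖ ≤ ‖x‖ := by
  have h := M.sum_le F (star x)
  rw [norm_star] at h
  refine le_trans (le_of_eq ?_) h
  refine Finset.sum_congr rfl fun n _ => ?_
  rw [M.coeff_star, RCLike.norm_conj]

/-- The vector field in the interaction picture. -/
noncomputable def field (m : ℕ) (t : ℝ) (x : W) : W :=
  (-Complex.I) • M.U (-t) (nl m (M.U t x))

theorem field_norm_le (m : ℕ) (t : ℝ) (x : W) : ‖M.field m t x‖ ≤ ‖x‖ ^ (2 * m + 1) := by
  unfold field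
  rw [norm_smul, M.norm_U, norm_neg, Complex.norm_I, one_mul]
  refine (nl_norm_le m _).trans ?_
  rw [M.norm_U]

theorem field_continuous (m : ℕ) (x : W) (s : Set ℝ) :
    ContinuousOn (fun t => M.field m t x) s := by
  unfold field
  have h1 : Continuous (nl m : W → W) := by
    unfold nl
    fun_prop
  have h2 : Continuous (fun t : ℝ => nl m (M.U (-t) x)) :=
    h1.comp ((M.continuous_U x).comp continuous_neg)
  have h3 : ContinuousOn (fun t : ℝ => M.U t (nl m (M.U (-t) x))) univ :=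
    M.continuousOn_U h2.continuousOn
  have h4 : Continuous (fun t : ℝ => M.U (-t) (nl m (M.U t x))) := by
    have h5 := (continuousOn_univ.mp h3).comp (continuous_neg (G := ℝ))
    refine h5.congr fun t => ?_
    simp only [Function.comp_apply, neg_neg]
  exact (h4.const_smul _).continuousOn

theorem field_lipschitz (m : ℕ) {r : ℝ} (hr : 0 ≤ r) :
    ∃ K : ℝ≥0, ∀ t, LipschitzOnWith K (M.field m t) (closedBall (0 : W) r) := by
  obtain ⟨K, hK⟩ := nl_lipschitz (W := W) m hr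
  refine ⟨K, fun t => LipschitzOnWith.of_dist_le_mul fun x hx y hy => ?_⟩
  have hx' : M.U t x ∈ closedBall (0 : W) r := by
    simpa only [mem_closedBall, dist_zero_right, M.norm_U] using hx
  have hy' : M.U t y ∈ closedBall (0 : W) r := by
    simpa only [mem_closedBall, dist_zero_right, M.norm_U] using hy
  have h := hK.dist_le_mul _ hx' _ hy'
  rw [dist_eq_norm, dist_eq_norm, ← map_sub, M.norm_U] at h
  rw [dist_eq_norm, dist_eq_norm]
  unfold field
  rw [← smul_sub, ← map_sub, norm_smul, M.norm_U, norm_neg, Complex.norm_I, one_mul]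
  exact h

/-- Existence of the cut off flow. -/
theorem exists_flow [CompleteSpace W] (m : ℕ) {ρ : ℝ} (hρ : 0 < ρ) {T : ℝ} (hT : 0 ≤ T)
    (v0 : W) :
    ∃ v : ℝ → W, v 0 = v0 ∧
      ∀ t ∈ Icc 0 T, HasDerivWithinAt v (cutField (M.field m) ρ t (v t)) (Icc 0 T) t := by
  obtain ⟨K, hK⟩ := M.field_lipschitz m (by positivity : 0 ≤ 2 * ρ)
  refine exists_cutoff (M.field m) hρ K ⟨(2 * ρ) ^ (2 * m + 1), by positivity⟩ hT
    (fun t _ => hK t) (fun t _ x hx => ?_) (fun x => M.field_continuous m x _) v0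
  refine (M.field_norm_le m t x).trans ?_
  have hx' : ‖x‖ ≤ 2 * ρ := by simpa only [mem_closedBall, dist_zero_right] using hx
  show ‖x‖ ^ (2 * m + 1) ≤ (2 * ρ) ^ (2 * m + 1)
  (clear * - hx'; gcongr)

/-- The equation for the Fourier coefficients, as long as the cutoff is inactive. -/
theorem coeff_deriv {m : ℕ} {ρ : ℝ} (hρ : 0 < ρ) {v : ℝ → W} {s : Set ℝ} {t : ℝ}
    (hv : HasDerivWithinAt v (cutField (M.field m) ρ t (v t)) s t) (hb : ‖v t‖ ≤ ρ)
    (n : Fin d → ℤ) :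
    HasDerivWithinAt (fun τ => M.coeff n (M.U τ (v τ)))
      (-Complex.I * ((A.sqNorm n : ℂ) * M.coeff n (M.U t (v t))
        + M.coeff n (nl m (M.U t (v t))))) s t := by
  have hc : cutField (M.field m) ρ t (v t) = M.field m t (v t) := by
    unfold cutField
    rw [cut_eq_one (by rw [div_le_one hρ]; exact hb), one_smul]
  rw [hc] at hv
  have h1 : HasDerivWithinAt (fun τ => M.coeff n (v τ)) (M.coeff n (M.field m t (v t))) s t :=
    ((M.coeff n).restrictScalars ℝ).hasFDerivAt.comp_hasDerivWithinAt t hv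
  have h2 : HasDerivWithinAt (fun τ : ℝ => Complex.exp (-(Complex.I * A.sqNorm n * τ)))
      (Complex.exp (-(Complex.I * A.sqNorm n * t)) * (-(Complex.I * A.sqNorm n))) s t := by
    have h3 : HasDerivAt (fun τ : ℝ => (-(Complex.I * A.sqNorm n * τ) : ℂ)) (-(Complex.I * A.sqNorm n)) t := by
      have h4 : HasDerivAt (fun τ : ℝ => (τ : ℂ)) 1 t := Complex.ofRealCLM.hasDerivAt
      simpa using (h4.const_mul (Complex.I * A.sqNorm n)).fun_neg
    exact h3.cexp.hasDerivWithinAt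
  have h5 := h2.fun_mul h1
  have h6 : (fun τ => M.coeff n (M.U τ (v τ)))
      = fun τ : ℝ => Complex.exp (-(Complex.I * A.sqNorm n * τ)) * M.coeff n (v τ) := by
    funext τ
    rw [M.coeff_U]
  rw [h6]
  refine h5.congr_deriv ?_
  unfold field
  rw [map_smul, M.coeff_U, smul_eq_mul, M.coeff_U]
  have h7 : Complex.exp (-(Complex.I * A.sqNorm n * t)) * (-Complex.I *
      (Complex.exp (-(Complex.I * A.sqNorm n * ((-t : ℝ) : ℂ))) * M.coeff n (nl m (M.U t (v t)))))
      = -Complex.I * M.coeff n (nl m (M.U t (v t))) := by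
    have h8 : Complex.exp (-(Complex.I * A.sqNorm n * t))
        * Complex.exp (-(Complex.I * A.sqNorm n * ((-t : ℝ) : ℂ))) = 1 := by
      rw [← Complex.exp_add]
      have : -(Complex.I * A.sqNorm n * t) + -(Complex.I * A.sqNorm n * ((-t : ℝ) : ℂ)) = 0 := by
        push_cast; ring
      rw [this, Complex.exp_zero]
    linear_combination (-Complex.I * M.coeff n (nl m (M.U t (v t)))) * h8
  rw [h7]
  ring

theorem coeff_nl_zero (m : ℕ) (u : W) :
    M.coeff 0 (nl m u) = (M.coeff 0 u * conj (M.coeff 0 u)) ^ m * M.coeff 0 u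
      + M.coeff 0 (rem m (M.coeff 0 u) (M.osc u)) := by
  have h : nl m u = rem m (M.coeff 0 u) (M.osc u)
      + (algebraMap ℂ W ((M.coeff 0 u * conj (M.coeff 0 u)) ^ m * M.coeff 0 u)
      + (m + 1 : ℂ) • ((M.coeff 0 u * conj (M.coeff 0 u)) ^ m • M.osc u)
      + (m : ℂ) • (((M.coeff 0 u * conj (M.coeff 0 u)) ^ (m - 1) * M.coeff 0 u ^ 2)
        • star (M.osc u))) := by
    unfold rem
    rw [M.osc_add]
    abel
  rw [h]
  simp only [map_add, map_smul, M.coeff_const, M.coeff_star, neg_zero, M.coeff_osc_zero,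
    map_zero, smul_zero, add_zero, if_true]
  ring

theorem coeff_nl_ne {n : Fin d → ℤ} (hn : n ≠ 0) (m : ℕ) (u : W) :
    M.coeff n (nl m u) = (m + 1 : ℂ) * (M.coeff 0 u * conj (M.coeff 0 u)) ^ m * M.coeff n u
      + m * (M.coeff 0 u * conj (M.coeff 0 u)) ^ (m - 1) * M.coeff 0 u ^ 2
        * conj (M.coeff (-n) u)
      + M.coeff n (rem m (M.coeff 0 u) (M.osc u)) := by
  have h : nl m u = rem m (M.coeff 0 u) (M.osc u)
      + (algebraMap ℂ W ((M.coeff 0 u * conj (M.coeff 0 u)) ^ m * M.coeff 0 u)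
      + (m + 1 : ℂ) • ((M.coeff 0 u * conj (M.coeff 0 u)) ^ m • M.osc u)
      + (m : ℂ) • (((M.coeff 0 u * conj (M.coeff 0 u)) ^ (m - 1) * M.coeff 0 u ^ 2)
        • star (M.osc u))) := by
    unfold rem
    rw [M.osc_add]
    abel
  have hn' : -n ≠ 0 := by simpa only [ne_eq, neg_eq_zero] using hn
  rw [h]
  simp only [map_add, map_smul, M.coeff_const, M.coeff_star, if_neg hn, M.coeff_osc hn,
    M.coeff_osc hn', smul_eq_mul]
  ring

theorem pair_deriv {m : ℕ} (hm : 1 ≤ m) {ρ : ℝ} (hρ : 0 < ρ) {v : ℝ → W} {s : Set ℝ} {t : ℝ}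
    (hv : HasDerivWithinAt v (cutField (M.field m) ρ t (v t)) s t) (hb : ‖v t‖ ≤ ρ)
    {n : Fin d → ℤ} (hn : n ≠ 0) {δ : ℝ} (hδ : 0 < δ) :
    ∃ e' : ℝ, HasDerivWithinAt (fun τ => Real.sqrt (en m (A.sqNorm n) (M.coeff 0 (M.U τ (v τ)))
        (M.coeff n (M.U τ (v τ))) (conj (M.coeff (-n) (M.U τ (v τ)))) + δ)) e' s t ∧
      |e'| ≤ Real.sqrt 2 *
        ((‖M.coeff n (rem m (M.coeff 0 (M.U t (v t))) (M.osc (M.U t (v t))))‖
          + ‖M.coeff (-n) (rem m (M.coeff 0 (M.U t (v t))) (M.osc (M.U t (v t))))‖)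
            * (1 + m * ‖M.coeff 0 (M.U t (v t))‖ ^ (2 * m))
        + (m : ℝ) ^ 2 * ‖M.coeff 0 (M.U t (v t))‖ ^ (2 * m - 1)
          * (‖M.coeff n (M.U t (v t))‖ + ‖M.coeff (-n) (M.U t (v t))‖)
          * ‖M.coeff 0 (rem m (M.coeff 0 (M.U t (v t))) (M.osc (M.U t (v t))))‖) := by
  set u := M.U t (v t) with hu
  set Q := rem m (M.coeff 0 u) (M.osc u) with hQ
  have hn' : -n ≠ 0 := by simpa using hn
  have hb0 := M.coeff_deriv hρ hv hb 0
  have hbn := M.coeff_deriv hρ hv hb n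
  have hbn' := (M.coeff_deriv hρ hv hb (-n)).star
  rw [M.coeff_nl_zero] at hb0
  rw [M.coeff_nl_ne hn] at hbn
  rw [M.coeff_nl_ne hn', neg_neg, A.sqNorm_neg] at hbn'
  have h0 : A.sqNorm (0 : Fin d → ℤ) = 0 := by simp only [A.sqNorm, Pi.zero_apply, Int.cast_zero, ne_eq, OfNat.ofNat_ne_zero, not_false_eq_true, zero_pow, Finset.sum_const_zero]
  have key := sqrt_en_deriv hm (A.one_le_sqNorm hn) (s := s) (t := t)
    (b := fun τ => M.coeff 0 (M.U τ (v τ))) (x := fun τ => M.coeff n (M.U τ (v τ)))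
    (y := fun τ => conj (M.coeff (-n) (M.U τ (v τ))))
    (q0 := M.coeff 0 Q) (q1 := M.coeff n Q) (q2 := conj (M.coeff (-n) Q)) hδ
    (hb0.congr_deriv (by rw [h0]; push_cast; ring))
    hbn
    (hbn'.congr_deriv (by
      simp only [star_mul', star_neg, RCLike.star_def, Complex.conj_I, star_add, Complex.conj_ofReal, map_natCast, map_one, star_pow, Complex.conj_conj]
      ring))
  simpa only [RingHomIsometric.norm_map] using key

theorem sqrt_add_le' {a b : ℝ} (ha : 0 ≤ a) (hb : 0 ≤ b) :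
    Real.sqrt (a + b) ≤ Real.sqrt a + Real.sqrt b := by
  rw [Real.sqrt_le_left (by positivity)]
  nlinarith only [Real.sq_sqrt ha, Real.sq_sqrt hb, mul_nonneg (Real.sqrt_nonneg a) (Real.sqrt_nonneg b)]

theorem rem_le {m : ℕ} {R η : ℝ} {u : W} (hR : ‖M.coeff 0 u‖ ≤ R) (hη : ‖M.osc u‖ ≤ η) :
    ‖rem m (M.coeff 0 u) (M.osc u)‖ ≤ qb m R η := by
  refine (rem_bound m _ _).trans ?_
  unfold qb
  have h1 := norm_nonneg (M.coeff 0 u)
  have h2 := norm_nonneg (M.osc u)
  have h3 : 0 ≤ R + η := by linarith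
  gcongr

theorem coeff_U_osc_norm (t : ℝ) (x : W) : ‖M.osc (M.U t x)‖ = ‖M.osc x‖ := by
  rw [M.osc_U, M.norm_U]

theorem coeff_U_zero_time (n : Fin d → ℤ) (x : W) : M.coeff n (M.U 0 x) = M.coeff n x := by
  rw [M.coeff_U]
  simp only [Complex.ofReal_zero, mul_zero, neg_zero, Complex.exp_zero, one_mul]

theorem osc_growth {m : ℕ} (hm : 1 ≤ m) {ρ R η : ℝ} (hρ : 0 < ρ) (hη0 : 0 ≤ η) (hR0 : 0 ≤ R)
    (hρR : R + η ≤ ρ) {v : ℝ → W} {t1 : ℝ} (ht1 : 0 ≤ t1)
    (hv : ∀ s ∈ Icc 0 t1, HasDerivWithinAt v (cutField (M.field m) ρ s (v s)) (Icc 0 t1) s)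
    (hη : ∀ s ∈ Icc 0 t1, ‖M.osc (v s)‖ ≤ η) (hR : ∀ s ∈ Icc 0 t1, ‖M.coeff 0 (v s)‖ ≤ R) :
    ‖M.osc (v t1)‖ ≤ Real.sqrt 2 * (2 * Real.sqrt (1 + m * R ^ (2 * m)) * ‖M.osc (v 0)‖
      + Dc m R η * t1) := by
  have hq0 : 0 ≤ qb m R η := by unfold qb; positivity
  have hvρ : ∀ s ∈ Icc 0 t1, ‖v s‖ ≤ ρ := by
    intro s hs
    have h1 : ‖algebraMap ℂ W (M.coeff 0 (v s)) + M.osc (v s)‖ ≤ R + η := by
      refine (norm_add_le _ _).trans (add_le_add ?_ (hη s hs))
      rw [norm_algebraMap']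
      exact hR s hs
    rw [M.osc_add] at h1
    exact h1.trans hρR
  -- partial sums
  apply M.norm_le_of_sum_le
  intro F0
  set F := F0.filter (fun n => n ≠ 0) with hF
  have hFn : ∀ n ∈ F, n ≠ 0 := fun n hn => (Finset.mem_filter.mp hn).2
  have hred : ∑ n ∈ F0, A.W k n * ‖M.coeff n (M.osc (v t1))‖
      ≤ ∑ n ∈ F, A.W k n * (‖M.coeff n (M.U t1 (v t1))‖ + ‖M.coeff (-n) (M.U t1 (v t1))‖) := by
    have h1 : ∑ n ∈ F0, A.W k n * ‖M.coeff n (M.osc (v t1))‖
        = ∑ n ∈ F, A.W k n * ‖M.coeff n (M.osc (v t1))‖ := by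
      rw [hF, Finset.sum_filter]
      refine Finset.sum_congr rfl fun n _ => ?_
      split_ifs with h
      · rfl
      · push Not at h
        rw [h, M.coeff_osc_zero, norm_zero, mul_zero]
    rw [h1]
    refine Finset.sum_le_sum fun n hn => ?_
    refine mul_le_mul_of_nonneg_left ?_ (wt_nonneg n)
    have h2 : ‖M.coeff n (M.osc (v t1))‖ = ‖M.coeff n (M.U t1 (v t1))‖ := by
      rw [← M.coeff_osc (hFn n hn) (M.U t1 (v t1)), M.osc_U, M.coeff_U, norm_mul]
      have : ‖Complex.exp (-(Complex.I * A.sqNorm n * t1))‖ = 1 := by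
        rw [Complex.norm_exp]; simp
      rw [this, one_mul]
    rw [h2]
    linarith only [norm_nonneg (M.coeff (-n) (M.U t1 (v t1)))]
  refine hred.trans ?_
  -- reduce to arbitrarily small regularisation
  set Wt := ∑ n ∈ F, A.W k n with hWt
  have hWt0 : 0 ≤ Wt := Finset.sum_nonneg fun n _ => wt_nonneg n
  refine le_of_forall_pos_le_add fun κ hκ => ?_
  set δ := (κ / (Real.sqrt 2 * (Wt + 1))) ^ 2 with hδ
  have hδpos : 0 < δ := by (clear * - hκ hWt0; positivity)
  have hsδ : Real.sqrt δ = κ / (Real.sqrt 2 * (Wt + 1)) := by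
    rw [hδ, Real.sqrt_sq (by positivity)]
  set E : (Fin d → ℤ) → ℝ → ℝ := fun n τ =>
    Real.sqrt (en m (A.sqNorm n) (M.coeff 0 (M.U τ (v τ)))
        (M.coeff n (M.U τ (v τ))) (conj (M.coeff (-n) (M.U τ (v τ)))) + δ) with hE
  have hderiv : ∀ s ∈ Icc 0 t1, ∀ n ∈ F, ∃ e' : ℝ, HasDerivWithinAt (E n) e' (Icc 0 t1) s ∧ _ :=
    fun s hs n hn => M.pair_deriv hm hρ (hv s hs) (hvρ s hs) (hFn n hn) hδpos
  choose! e' he'1 he'2 using hderiv
  have hG : ∀ s ∈ Icc 0 t1, HasDerivWithinAt (fun τ => ∑ n ∈ F, A.W k n * E n τ)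
      (∑ n ∈ F, A.W k n * e' s n) (Icc 0 t1) s := by
    intro s hs
    refine HasDerivWithinAt.fun_sum fun n hn => ?_
    exact (he'1 s hs n hn).const_mul _
  have hGb : ∀ s ∈ Icc 0 t1, ‖∑ n ∈ F, A.W k n * e' s n‖ ≤ Dc m R η := by
    intro s hs
    set u := M.U s (v s) with hu
    set Q := rem m (M.coeff 0 u) (M.osc u) with hQ
    have hu0 : ‖M.coeff 0 u‖ ≤ R := by
      rw [hu, M.coeff_zero_U]; exact hR s hs
    have hu1 : ‖M.osc u‖ ≤ η := by
      rw [hu, M.coeff_U_osc_norm]; exact hη s hs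
    have hQb : ‖Q‖ ≤ qb m R η := M.rem_le hu0 hu1
    have hQ1 : ∑ n ∈ F, A.W k n * ‖M.coeff n Q‖ ≤ qb m R η := (M.sum_le F Q).trans hQb
    have hQ2 : ∑ n ∈ F, A.W k n * ‖M.coeff (-n) Q‖ ≤ qb m R η := (M.sum_neg_le F Q).trans hQb
    have hQ0 : ‖M.coeff 0 Q‖ ≤ qb m R η := (M.coeff_norm_le 0 Q).trans hQb
    have hw1 : ∑ n ∈ F, A.W k n * ‖M.coeff n u‖ ≤ η := by
      refine le_trans (le_of_eq ?_) ((M.sum_le F (M.osc u)).trans hu1)
      exact Finset.sum_congr rfl fun n hn => by rw [M.coeff_osc (hFn n hn)]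
    have hw2 : ∑ n ∈ F, A.W k n * ‖M.coeff (-n) u‖ ≤ η := by
      refine le_trans (le_of_eq ?_) ((M.sum_neg_le F (M.osc u)).trans hu1)
      exact Finset.sum_congr rfl fun n hn => by
        rw [M.coeff_osc (by simpa only [ne_eq, neg_eq_zero] using hFn n hn : -n ≠ 0)]
    rw [Real.norm_eq_abs]
    calc |∑ n ∈ F, A.W k n * e' s n| ≤ ∑ n ∈ F, |A.W k n * e' s n| :=
          Finset.abs_sum_le_sum_abs _ _
      _ ≤ ∑ n ∈ F, A.W k n * (Real.sqrt 2 * ((‖M.coeff n Q‖ + ‖M.coeff (-n) Q‖)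
            * (1 + m * R ^ (2 * m))
            + (m : ℝ) ^ 2 * R ^ (2 * m - 1)
              * (‖M.coeff n u‖ + ‖M.coeff (-n) u‖) * qb m R η)) := by
          refine Finset.sum_le_sum fun n hn => ?_
          rw [abs_mul, abs_of_nonneg (wt_nonneg n)]
          refine mul_le_mul_of_nonneg_left ?_ (wt_nonneg n)
          refine (he'2 s hs n hn).trans ?_
          (clear * - hu0 hm hQ0 hR0; gcongr)
      _ = Real.sqrt 2 * ((∑ n ∈ F, A.W k n * ‖M.coeff n Q‖
            + ∑ n ∈ F, A.W k n * ‖M.coeff (-n) Q‖) * (1 + m * R ^ (2 * m))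
            + (m : ℝ) ^ 2 * R ^ (2 * m - 1) * (∑ n ∈ F, A.W k n * ‖M.coeff n u‖
              + ∑ n ∈ F, A.W k n * ‖M.coeff (-n) u‖) * qb m R η) := by
          simp only [Finset.mul_sum, Finset.sum_mul, ← Finset.sum_add_distrib, mul_add, add_mul]
          refine Finset.sum_congr rfl fun n _ => ?_
          ring
      _ ≤ Real.sqrt 2 * ((qb m R η + qb m R η) * (1 + m * R ^ (2 * m))
            + (m : ℝ) ^ 2 * R ^ (2 * m - 1) * (η + η) * qb m R η) := by
          (clear * - hQ1 hQ2 hm hR0 hw1 hw2 hq0; gcongr)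
      _ = Dc m R η := by unfold Dc; ring
  have hmv := (convex_Icc (0 : ℝ) t1).norm_image_sub_le_of_norm_hasDerivWithin_le hG hGb
    (left_mem_Icc.mpr ht1) (right_mem_Icc.mpr ht1)
  rw [Real.norm_eq_abs, Real.norm_eq_abs, sub_zero, abs_of_nonneg ht1] at hmv
  have hG1 : ∑ n ∈ F, A.W k n * E n t1 ≤ ∑ n ∈ F, A.W k n * E n 0 + Dc m R η * t1 := by
    have := (abs_le.mp hmv).2
    linarith only [this]
  have hs2 : (0 : ℝ) < Real.sqrt 2 := by positivity
  have hlow : ∑ n ∈ F, A.W k n * (‖M.coeff n (M.U t1 (v t1))‖ + ‖M.coeff (-n) (M.U t1 (v t1))‖)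
      ≤ Real.sqrt 2 * ∑ n ∈ F, A.W k n * E n t1 := by
    rw [Finset.mul_sum]
    refine Finset.sum_le_sum fun n hn => ?_
    have h1 : (‖M.coeff n (M.U t1 (v t1))‖ + ‖M.coeff (-n) (M.U t1 (v t1))‖)
        ≤ Real.sqrt 2 * E n t1 := by
      rw [hE]
      dsimp only
      rw [← Real.sqrt_mul (by norm_num)]
      apply Real.le_sqrt_of_sq_le
      have h2 := en_lower m (by linarith only [A.one_le_sqNorm (hFn n hn)] : 0 ≤ A.sqNorm n)
        (M.coeff 0 (M.U t1 (v t1))) (M.coeff n (M.U t1 (v t1)))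
        (conj (M.coeff (-n) (M.U t1 (v t1))))
      rw [RCLike.norm_conj] at h2
      linarith only [hδpos, h2]
    calc _ ≤ A.W k n * (Real.sqrt 2 * E n t1) := mul_le_mul_of_nonneg_left h1 (wt_nonneg n)
      _ = _ := by ring
  have hup : ∑ n ∈ F, A.W k n * E n 0
      ≤ 2 * Real.sqrt (1 + m * R ^ (2 * m)) * ‖M.osc (v 0)‖ + Real.sqrt δ * Wt := by
    have hb : ∀ n ∈ F, A.W k n * E n 0 ≤ A.W k n * (Real.sqrt (1 + m * R ^ (2 * m))
        * (‖M.coeff n (M.osc (v 0))‖ + ‖M.coeff (-n) (M.osc (v 0))‖)) + Real.sqrt δ * A.W k n := by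
      intro n hn
      have hn' : -n ≠ 0 := by simpa using hFn n hn
      have h1 : E n 0 ≤ Real.sqrt (1 + m * R ^ (2 * m))
        * (‖M.coeff n (M.osc (v 0))‖ + ‖M.coeff (-n) (M.osc (v 0))‖) + Real.sqrt δ := by
        rw [hE]
        dsimp only
        refine (sqrt_add_le' ((by (clear * -; positivity) : (0 : ℝ) ≤ _).trans (en_lower m
          (by linarith only [A.one_le_sqNorm (hFn n hn)] : 0 ≤ A.sqNorm n) _ _ _)) hδpos.le).trans ?_
        refine add_le_add ?_ le_rfl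
        rw [M.coeff_U_zero_time, M.coeff_U_zero_time, M.coeff_U_zero_time,
          M.coeff_osc (hFn n hn), M.coeff_osc hn']
        rw [Real.sqrt_le_left (by (clear * - hm hR0; positivity)), mul_pow, Real.sq_sqrt (by (clear * - hm hR0; positivity))]
        have h2 := en_upper hm (A.one_le_sqNorm (hFn n hn)) (M.coeff 0 (v 0)) (M.coeff n (v 0))
          (conj (M.coeff (-n) (v 0)))
        rw [RCLike.norm_conj] at h2
        refine h2.trans ?_
        have h3 := hR 0 (left_mem_Icc.mpr ht1)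
        (clear * - h3 hm; gcongr)
      calc _ ≤ A.W k n * (Real.sqrt (1 + m * R ^ (2 * m))
        * (‖M.coeff n (M.osc (v 0))‖ + ‖M.coeff (-n) (M.osc (v 0))‖) + Real.sqrt δ) :=
            mul_le_mul_of_nonneg_left h1 (wt_nonneg n)
        _ = _ := by ring
    calc _ ≤ ∑ n ∈ F, (A.W k n * (Real.sqrt (1 + m * R ^ (2 * m))
        * (‖M.coeff n (M.osc (v 0))‖ + ‖M.coeff (-n) (M.osc (v 0))‖)) + Real.sqrt δ * A.W k n) :=
            Finset.sum_le_sum hb
      _ = Real.sqrt (1 + m * R ^ (2 * m)) * (∑ n ∈ F, A.W k n * ‖M.coeff n (M.osc (v 0))‖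
            + ∑ n ∈ F, A.W k n * ‖M.coeff (-n) (M.osc (v 0))‖) + Real.sqrt δ * Wt := by
          rw [hWt]
          simp only [Finset.mul_sum, ← Finset.sum_add_distrib, mul_add]
          refine Finset.sum_congr rfl fun n _ => ?_
          ring
      _ ≤ Real.sqrt (1 + m * R ^ (2 * m)) * (‖M.osc (v 0)‖ + ‖M.osc (v 0)‖)
            + Real.sqrt δ * Wt := by
          gcongr
          · exact M.sum_le F _
          · exact M.sum_neg_le F _
      _ = _ := by ring
  have hfin : Real.sqrt 2 * (Real.sqrt δ * Wt) ≤ κ := by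
    rw [hsδ]
    rw [show Real.sqrt 2 * (κ / (Real.sqrt 2 * (Wt + 1)) * Wt) = κ * (Wt / (Wt + 1)) by
      (clear * - hWt0 hκ; field_simp)]
    have : Wt / (Wt + 1) ≤ 1 := by
      rw [div_le_one (by (clear * - hWt0; positivity))]; linarith only []
    nlinarith only [hκ, this]
  calc _ ≤ Real.sqrt 2 * ∑ n ∈ F, A.W k n * E n t1 := hlow
    _ ≤ Real.sqrt 2 * ((2 * Real.sqrt (1 + m * R ^ (2 * m)) * ‖M.osc (v 0)‖ + Real.sqrt δ * Wt)
          + Dc m R η * t1) := by
        gcongr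
        linarith only [hG1, hup]
    _ = Real.sqrt 2 * (2 * Real.sqrt (1 + m * R ^ (2 * m)) * ‖M.osc (v 0)‖ + Dc m R η * t1)
          + Real.sqrt 2 * (Real.sqrt δ * Wt) := by ring
    _ ≤ _ := by linarith only [hfin]

theorem norm_le_of_split {R η ρ : ℝ} (hρR : R + η ≤ ρ) {x : W} (h0 : ‖M.coeff 0 x‖ ≤ R)
    (h1 : ‖M.osc x‖ ≤ η) : ‖x‖ ≤ ρ := by
  have h2 : ‖algebraMap ℂ W (M.coeff 0 x) + M.osc x‖ ≤ R + η := by
    refine (norm_add_le _ _).trans (add_le_add ?_ h1)
    rw [norm_algebraMap']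
    exact h0
  rw [M.osc_add] at h2
  exact h2.trans hρR

theorem zero_growth {m : ℕ} {ρ R η : ℝ} (hρ : 0 < ρ) (hR0 : 0 ≤ R)
    (hρR : R + η ≤ ρ) {v : ℝ → W} {t1 : ℝ} (ht1 : 0 ≤ t1)
    (hv : ∀ s ∈ Icc 0 t1, HasDerivWithinAt v (cutField (M.field m) ρ s (v s)) (Icc 0 t1) s)
    (hη : ∀ s ∈ Icc 0 t1, ‖M.osc (v s)‖ ≤ η) (hR : ∀ s ∈ Icc 0 t1, ‖M.coeff 0 (v s)‖ ≤ R) :
    ‖M.coeff 0 (v t1)‖ ^ 2 ≤ ‖M.coeff 0 (v 0)‖ ^ 2 + 2 * R * qb m R η * t1 := by
  have hvρ : ∀ s ∈ Icc 0 t1, ‖v s‖ ≤ ρ := fun s hs => M.norm_le_of_split hρR (hR s hs) (hη s hs)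
  have hsqNorm0 : A.sqNorm (0 : Fin d → ℤ) = 0 := by simp only [A.sqNorm, Pi.zero_apply, Int.cast_zero, ne_eq, OfNat.ofNat_ne_zero, not_false_eq_true, zero_pow, Finset.sum_const_zero]
  set b : ℝ → ℂ := fun τ => M.coeff 0 (M.U τ (v τ)) with hb
  have hbn : ∀ τ, ‖b τ‖ = ‖M.coeff 0 (v τ)‖ := fun τ => by rw [hb]; simp only [M.coeff_zero_U]
  have hder : ∀ s ∈ Icc 0 t1, HasDerivWithinAt (fun τ => b τ * conj (b τ))
      (-Complex.I * M.coeff 0 (rem m (b s) (M.osc (M.U s (v s)))) * conj (b s)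
        + b s * conj (-Complex.I * M.coeff 0 (rem m (b s) (M.osc (M.U s (v s)))))) 
      (Icc 0 t1) s := by
    intro s hs
    have h1 := M.coeff_deriv hρ (hv s hs) (hvρ s hs) 0
    rw [M.coeff_nl_zero, hsqNorm0] at h1
    have h2 : HasDerivWithinAt (fun τ => conj (b τ)) _ (Icc 0 t1) s := h1.star
    refine (HasDerivWithinAt.fun_mul h1 h2).congr_deriv ?_
    simp only [star_mul', star_add, star_neg, star_pow, RCLike.star_def, Complex.conj_I, map_mul,
      map_neg, Complex.conj_ofReal, Complex.conj_conj, hb]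
    push_cast
    ring
  have hbound : ∀ s ∈ Icc 0 t1,
      ‖-Complex.I * M.coeff 0 (rem m (b s) (M.osc (M.U s (v s)))) * conj (b s)
        + b s * conj (-Complex.I * M.coeff 0 (rem m (b s) (M.osc (M.U s (v s)))))‖
      ≤ 2 * R * qb m R η := by
    intro s hs
    have hu0 : ‖M.coeff 0 (M.U s (v s))‖ ≤ R := by
      rw [M.coeff_zero_U]; exact hR s hs
    have hu1 : ‖M.osc (M.U s (v s))‖ ≤ η := by
      rw [M.coeff_U_osc_norm]; exact hη s hs
    have hQ0 : ‖M.coeff 0 (rem m (b s) (M.osc (M.U s (v s))))‖ ≤ qb m R η :=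
      (M.coeff_norm_le 0 _).trans (M.rem_le hu0 hu1)
    have h3 : ‖b s‖ ≤ R := hu0
    have h4 := norm_nonneg (b s)
    generalize M.coeff 0 (rem m (b s) (M.osc (M.U s (v s)))) = z at hQ0 ⊢
    generalize b s = y at h3 h4 ⊢
    have h5 := norm_nonneg z
    refine (norm_add_le _ _).trans ?_
    have e1 : ‖-Complex.I * z * conj y‖ = ‖z‖ * ‖y‖ := by
      rw [norm_mul, norm_mul, norm_neg, Complex.norm_I, one_mul, RCLike.norm_conj]
    have e2 : ‖y * conj (-Complex.I * z)‖ = ‖y‖ * ‖z‖ := by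
      rw [norm_mul, RCLike.norm_conj, norm_mul, norm_neg, Complex.norm_I, one_mul]
    rw [e1, e2]
    nlinarith only [hQ0, h3, h4, h5]
  have hmv := (convex_Icc (0 : ℝ) t1).norm_image_sub_le_of_norm_hasDerivWithin_le hder hbound
    (left_mem_Icc.mpr ht1) (right_mem_Icc.mpr ht1)
  have h6 : ∀ τ, b τ * conj (b τ) = ((‖M.coeff 0 (v τ)‖ ^ 2 : ℝ) : ℂ) := by
    intro τ
    rw [Complex.mul_conj, Complex.normSq_eq_norm_sq, hbn]
  simp only [h6] at hmv
  rw [← Complex.ofReal_sub, Complex.norm_real, Real.norm_eq_abs, Real.norm_eq_abs, sub_zero,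
    abs_of_nonneg ht1] at hmv
  have := (abs_le.mp hmv).2
  linarith only [this]

theorem bootstrap [CompleteSpace W] {m : ℕ} (hm : 1 ≤ m) {R ε η T : ℝ} (hR : 1 ≤ R)
    (hε : 0 < ε) (hη : η = 16 * (1 + m) * (R + 1) ^ m * ε) (hη1 : η ≤ 1) (hT : 0 ≤ T)
    (hTη : T * (C2 m * (R + 1) ^ (4 * m) * η) ≤ 1) (x0 : W) (h0 : ‖M.coeff 0 x0‖ ≤ R)
    (h1 : ‖M.osc x0‖ ≤ ε) :
    ∃ v : ℝ → W, v 0 = x0 ∧
      (∀ t ∈ Icc 0 T, HasDerivWithinAt v (cutField (M.field m) (R + 2) t (v t)) (Icc 0 T) t) ∧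
      ∀ t ∈ Icc 0 T, ‖v t‖ ≤ R + 2 := by
  have hρ : 0 < R + 2 := by linarith only [hR]
  obtain ⟨v, hv0, hv⟩ := M.exists_flow m hρ hT x0
  refine ⟨v, hv0, hv, ?_⟩
  have hm1 : (1 : ℝ) ≤ m := by exact_mod_cast hm
  set S := R + 1 with hS
  have hS2 : 2 ≤ S := by linarith only [hR]
  have hηpos : 0 < η := by rw [hη]; (clear * - hm hR hε; positivity)
  have hvc : ContinuousOn v (Icc 0 T) := HasDerivWithinAt.continuousOn hv
  have hfc : ContinuousOn (fun t => ‖M.osc (v t)‖) (Icc 0 T) :=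
    (M.continuous_osc.comp_continuousOn hvc).norm
  have hgc : ContinuousOn (fun t => ‖M.coeff 0 (v t)‖) (Icc 0 T) :=
    ((M.coeff 0).continuous.comp_continuousOn hvc).norm
  have hSm : (1 : ℝ) ≤ S ^ m := one_le_pow₀ (by linarith only [hR])
  have hεη : ε ≤ η / 32 := by
    rw [hη]
    have : 2 * 1 * ε ≤ (1 + m) * S ^ m * ε := by
      have h2 : (2 : ℝ) ≤ 1 + m := by linarith only [hm1]
      (clear * - h2 hSm hm hε; gcongr)
    linarith only [this]
  have key : ∀ t ∈ Icc 0 T, ‖M.osc (v t)‖ < η ∧ ‖M.coeff 0 (v t)‖ < S := by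
    refine continuity_bootstrap hfc hgc ?_ ?_
    · intro t ht hbd
      have hsub : Icc 0 t ⊆ Icc 0 T := Icc_subset_Icc_right ht.2
      have hv' : ∀ s ∈ Icc 0 t, HasDerivWithinAt v (cutField (M.field m) (R + 2) s (v s))
          (Icc 0 t) s := fun s hs => (hv s (hsub hs)).mono hsub
      have hg1 := M.osc_growth hm hρ hηpos.le (by linarith only [hR] : 0 ≤ S) (by linarith only [hη1]) ht.1 hv'
        (fun s hs => (hbd s hs).1) (fun s hs => (hbd s hs).2)
      have hg2 := M.zero_growth (m := m) hρ (by linarith only [hR] : 0 ≤ S) (by linarith only [hη1] : S + η ≤ R + 2)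
        ht.1 hv' (fun s hs => (hbd s hs).1) (fun s hs => (hbd s hs).2)
      rw [hv0] at hg1 hg2
      have htη : t * (C2 m * S ^ (4 * m) * η) ≤ 1 := by
        refine le_trans ?_ hTη
        have h3 : 0 ≤ C2 m * S ^ (4 * m) * η := by unfold C2; positivity
        exact mul_le_mul_of_nonneg_right ht.2 h3
      have hS1 : 1 ≤ S := by linarith only [hR]
      have hDt := Dc_time hm hS1 hηpos.le hη1 ht.1 htη
      have hqt := q_time hm hS1 hηpos.le hη1 ht.1 htη
      have hsb := sqrt_bound (m := m) hS1 (norm_nonneg _) h1 hη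
      refine ⟨?_, ?_⟩
      · refine hg1.trans_lt ?_
        rw [mul_add, ← mul_assoc (Real.sqrt 2) (Dc m S η) t]
        linarith
      · have h26 : ‖M.coeff 0 (v t)‖ ^ 2 ≤ R ^ 2 + 1 := by
          have : ‖M.coeff 0 x0‖ ^ 2 ≤ R ^ 2 := by (clear * - h0; gcongr)
          linarith only [hg2, hqt, this]
        have h27 : ‖M.coeff 0 (v t)‖ ^ 2 < S ^ 2 := by
          rw [hS]; nlinarith only [hR, h26]
        exact lt_of_pow_lt_pow_left₀ 2 (by linarith only [hR]) h27
    · rw [hv0]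
      exact ⟨by linarith only [hε, h1, hεη], by linarith only [h0]⟩
  intro t ht
  exact M.norm_le_of_split (by linarith only [hη1] : S + η ≤ R + 2) (key t ht).2.le (key t ht).1.le

end flow

end Model

end Vale.Agent.P139
end
end

section

section

open Set Metric Filter Topology
open scoped NNReal ENNReal ComplexConjugate

namespace Vale.Agent.P139

open A A.WA

variable {d k : ℕ}

noncomputable instance : StarRing (WA d k) where
  star := fun a => conjL a
  star_involutive := fun a => by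
    show conjL (conjL a) = a
    ext n
    rw [coef_conjL, coef_conjL]
    simp
  star_mul := fun a b => by
    show conjL (a * b) = conjL b * conjL a
    apply ev_injective
    intro x
    rw [ev_conjL, ev_mul, ev_mul, ev_conjL, ev_conjL, map_mul, mul_comm]
  star_add := fun a b => map_add _ _ _

theorem star_eq (a : WA d k) : star a = conjL a := rfl

instance : NormedStarGroup (WA d k) where
  norm_star_le a := by
    rw [star_eq, norm_eq, ← tsum_neg' a]
    refine le_of_eq (tsum_congr fun n => ?_)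
    rw [coef_conjL, RCLike.norm_conj]

instance : StarModule ℂ (WA d k) where
  star_smul c a := by
    rw [star_eq, star_eq]
    ext n
    rw [coef_conjL, coef_smul, coef_smul, coef_conjL, map_mul]
    rfl

instance : NormOneClass (WA d k) where
  norm_one := by
    rw [norm_eq, tsum_eq_single 0]
    · simp [coef_one, W_zero]
    · intro n hn
      simp [coef_one, hn]

theorem norm_phase (t : ℝ) (n : Lat d) : ‖Complex.exp (-(Complex.I * sqNorm n * t))‖ = 1 := by
  rw [Complex.norm_exp]; simp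

theorem Ug_summable (t : ℝ) (a : WA d k) : Summable fun n =>
    W k n * ‖Complex.exp (-(Complex.I * sqNorm n * t)) * coef a n‖ := by
  refine a.summable.congr fun n => ?_
  rw [norm_mul, norm_phase, one_mul]

/-- The free Schrödinger group on the Wiener algebra. -/
noncomputable def Ug (t : ℝ) : WA d k →L[ℂ] WA d k :=
  LinearMap.mkContinuous
    { toFun := fun a => mk (fun n => Complex.exp (-(Complex.I * sqNorm n * t)) * coef a n)
        (Ug_summable t a)
      map_add' := fun a b => by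
        ext n
        rw [coef_mk, coef_add, coef_add, coef_mk, coef_mk]
        ring
      map_smul' := fun c a => by
        ext n
        rw [coef_mk, coef_smul, RingHom.id_apply, coef_smul, coef_mk]
        ring } 1 (fun a => by
        simp only [LinearMap.coe_mk, AddHom.coe_mk]
        rw [one_mul, norm_eq, norm_eq]
        refine le_of_eq (tsum_congr fun n => ?_)
        rw [coef_mk, norm_mul, norm_phase, one_mul])

theorem coef_Ug (t : ℝ) (a : WA d k) (n : Lat d) :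
    coef (Ug t a) n = Complex.exp (-(Complex.I * sqNorm n * t)) * coef a n :=
  coef_mk _ (Ug_summable t a) n

theorem continuous_Ug (a : WA d k) : Continuous (fun t => Ug t a) := by
  refine continuous_of_dominated (fun n => W k n * ‖coef a n‖) a.summable (fun n => ?_)
    (fun t n => ?_)
  · simp_rw [coef_Ug]
    fun_prop
  · rw [coef_Ug, norm_mul, norm_phase, one_mul]

/-- The Wiener algebra as a model. -/
noncomputable def wienerModel (d k : ℕ) : Model d k (WA d k) where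
  coeff := coefL
  hasSum_norm x := by
    rw [norm_eq]
    exact x.summable.hasSum
  coeff_star n x := by
    rw [star_eq]
    exact coef_conjL x n
  coeff_const n c := by
    rw [coefL_apply, Algebra.algebraMap_eq_smul_one, coef_smul, coef_one]
    split_ifs <;> simp
  U := Ug
  coeff_U t n x := coef_Ug t x n
  continuous_U x := continuous_Ug x

theorem nl_eq_F (m : ℕ) (a : WA d k) : nl m a = F m a := by
  unfold nl F
  rw [star_eq]
  ring

theorem det_main {m : ℕ} (hm : 1 ≤ m) {R ε η T : ℝ} (hR : 1 ≤ R)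
    (hε : 0 < ε) (hη : η = 16 * (1 + m) * (R + 1) ^ m * ε) (hη1 : η ≤ 1) (hT : 0 ≤ T)
    (hTη : T * (C2 m * (R + 1) ^ (4 * m) * η) ≤ 1) (a : WA d k) (h0 : ‖coef a 0‖ ≤ R)
    (h1 : ‖a - coef a 0 • (1 : WA d k)‖ ≤ ε) :
    ∃ u : ℝ → WA d k, u 0 = a ∧ IsSolution d (2 * m + 1) k T (fun t => coef (u t)) := by
  set M := wienerModel d k with hM
  have hosc : M.osc a = a - coef a 0 • (1 : WA d k) := by
    unfold Model.osc
    rw [Algebra.algebraMap_eq_smul_one]
    rfl
  obtain ⟨v, hv0, hv, hvb⟩ := M.bootstrap hm hR hε hη hη1 hT hTη a h0 (by rw [hosc]; exact h1)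
  refine ⟨fun t => M.U t (v t), ?_, ?_⟩
  · show M.U 0 (v 0) = a
    rw [hv0]
    apply M.ext
    intro n
    rw [M.coeff_U_zero_time]
  · refine isSolution_of (M.continuousOn_U (HasDerivWithinAt.continuousOn hv)) ?_
    intro t ht n
    have hρ : 0 < R + 2 := by linarith only [hR]
    have h2 := M.coeff_deriv hρ (hv t ht) (hvb t ht) n
    refine h2.congr_deriv ?_
    rw [nl_eq_F]
    show -Complex.I * ((sqNorm n : ℂ) * coef (M.U t (v t)) n + coef (F m (M.U t (v t))) n) = _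
    ring

end Vale.Agent.P139
end
end

section

section

open Set Metric Filter Topology MeasureTheory ProbabilityTheory
open scoped NNReal ENNReal ComplexConjugate

namespace Vale.Agent.P139

open A A.WA

variable {d k : ℕ}

theorem subG : HasSubgaussianMGF (fun x : ℝ => x) (1 / 2) (gaussianReal 0 (1 / 2)) where
  integrable_exp_mul t := by
    have := integrable_exp_mul_gaussianReal (μ := 0) (v := 1 / 2) t
    exact this
  mgf_le t := by
    rw [mgf_fun_id_gaussianReal]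
    simp only [zero_mul, one_div, NNReal.coe_inv, NNReal.coe_ofNat, zero_add, Std.le_refl]

theorem gauss_tail {s : ℝ} (hs : 0 ≤ s) :
    gaussianReal 0 (1 / 2) {x | s ≤ |x|} ≤ ENNReal.ofReal (2 * Real.exp (-s ^ 2)) := by
  have h1 := subG.measure_ge_le hs
  have h2 := subG.neg.measure_ge_le hs
  have e : -s ^ 2 / (2 * ((1 / 2 : ℝ≥0) : ℝ)) = -s ^ 2 := by
    push_cast; ring
  rw [e] at h1 h2
  have hsub : {x : ℝ | s ≤ |x|} ⊆ {x | s ≤ x} ∪ {x | s ≤ (-fun x : ℝ => x) x} := by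
    intro x hx
    simp only [mem_ofPred_eq, le_abs] at hx
    rcases hx with hx | hx
    · left; exact hx
    · right; simpa only [Pi.neg_apply, mem_ofPred_eq] using hx
  refine (measure_mono hsub).trans ((measure_union_le _ _).trans ?_)
  rw [two_mul, ENNReal.ofReal_add (by positivity) (by positivity)]
  refine add_le_add ?_ ?_
  · rw [← ofReal_measureReal]
    exact ENNReal.ofReal_le_ofReal h1
  · rw [← ofReal_measureReal]
    exact ENNReal.ofReal_le_ofReal h2

theorem std_tail {s : ℝ} (hs : 0 ≤ s) :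
    stdComplexGaussian {z | s < ‖z‖} ≤ ENNReal.ofReal (4 * Real.exp (-s ^ 2 / 2)) := by
  have hmeas : MeasurableSet {z : ℂ | s < ‖z‖} := measurableSet_lt measurable_const measurable_norm
  unfold stdComplexGaussian
  rw [Measure.map_apply measurable_mkC hmeas]
  have hsub : (fun z : ℝ × ℝ => (⟨z.1, z.2⟩ : ℂ)) ⁻¹' {z | s < ‖z‖} ⊆
      ({x : ℝ | s / Real.sqrt 2 ≤ |x|} ×ˢ univ) ∪ (univ ×ˢ {x : ℝ | s / Real.sqrt 2 ≤ |x|}) := by
    rintro ⟨x, y⟩ h
    simp only [mem_preimage, mem_ofPred_eq] at h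
    by_contra hcon
    simp only [mem_union, mem_prod, mem_ofPred_eq, mem_univ, and_true, true_and, not_or,
      not_le] at hcon
    have h1 : ‖(⟨x, y⟩ : ℂ)‖ ^ 2 = x ^ 2 + y ^ 2 := by
      rw [← Complex.normSq_eq_norm_sq, Complex.normSq_mk]; ring
    have h2 : x ^ 2 < s ^ 2 / 2 := by
      have := hcon.1
      rw [lt_div_iff₀ (by positivity)] at this
      have h3 : (|x| * Real.sqrt 2) ^ 2 < s ^ 2 := by
        (clear * - this; gcongr)
      rw [mul_pow, Real.sq_sqrt (by norm_num), sq_abs] at h3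
      linarith only [h3]
    have h4 : y ^ 2 < s ^ 2 / 2 := by
      have := hcon.2
      rw [lt_div_iff₀ (by positivity)] at this
      have h3 : (|y| * Real.sqrt 2) ^ 2 < s ^ 2 := by
        gcongr
      rw [mul_pow, Real.sq_sqrt (by norm_num), sq_abs] at h3
      linarith only [h3]
    have h5 : s ^ 2 < ‖(⟨x, y⟩ : ℂ)‖ ^ 2 := by (clear * - h hs; gcongr)
    linarith only [h1, h2, h4, h5]
  refine (measure_mono hsub).trans ((measure_union_le _ _).trans ?_)
  rw [Measure.prod_prod, Measure.prod_prod, measure_univ, mul_one, one_mul]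
  have h6 := gauss_tail (s := s / Real.sqrt 2) (by positivity)
  have h7 : (s / Real.sqrt 2) ^ 2 = s ^ 2 / 2 := by
    rw [div_pow, Real.sq_sqrt (by norm_num)]
  rw [h7] at h6
  calc _ ≤ ENNReal.ofReal (2 * Real.exp (-(s ^ 2 / 2)))
        + ENNReal.ofReal (2 * Real.exp (-(s ^ 2 / 2))) := add_le_add h6 h6
    _ = _ := by
      rw [← ENNReal.ofReal_add (by positivity) (by positivity)]
      congr 1
      rw [neg_div]
      ring

theorem exp_le_W_inv (n : Lat d) :
    Real.exp (-(1 + ‖n‖) ^ 2 / 4) ≤ (d.factorial * 4 ^ d : ℝ) * (W (2 * d) n)⁻¹ := by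
  have hn := norm_nonneg n
  have h1 := Real.pow_div_factorial_le_exp (x := (1 + ‖n‖) ^ 2 / 4) (by positivity) d
  rw [neg_div, Real.exp_neg]
  unfold W
  have h2 : ((1 + ‖n‖) ^ 2 / 4) ^ d / d.factorial = (1 + ‖n‖) ^ (2 * d) / (d.factorial * 4 ^ d) := by
    rw [div_pow, ← pow_mul]
    field_simp
  rw [h2] at h1
  have h3 : 0 < (1 + ‖n‖) ^ (2 * d) / ((d.factorial : ℝ) * 4 ^ d) := by positivity
  calc (Real.exp ((1 + ‖n‖) ^ 2 / 4))⁻¹ ≤ ((1 + ‖n‖) ^ (2 * d) / ((d.factorial : ℝ) * 4 ^ d))⁻¹ :=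
        inv_anti₀ h3 h1
    _ = _ := by rw [inv_div]; ring

theorem union_bound {Ω : Type*} [MeasurableSpace Ω] (P : Measure Ω)
    {g : Lat d → Ω → ℂ} (hm : ∀ n, Measurable (g n))
    (hg : ∀ n, P.map (g n) = stdComplexGaussian) {lam : ℝ} (hl : 1 ≤ lam) :
    P {ω | ∃ n, lam * (1 + ‖n‖) < ‖g n ω‖} ≤
      ENNReal.ofReal ((4 * (d.factorial * 4 ^ d) * ∑' n : Lat d, (W (2 * d) n)⁻¹)
        * Real.exp (-lam ^ 2 / 4)) := by
  have hset : {ω | ∃ n, lam * (1 + ‖n‖) < ‖g n ω‖} = ⋃ n, g n ⁻¹' {z | lam * (1 + ‖n‖) < ‖z‖} := by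
    ext ω; simp only [mem_ofPred_eq, preimage_ofPred_eq, mem_iUnion]
  rw [hset]
  refine (measure_iUnion_le _).trans ?_
  have hterm : ∀ n : Lat d, P (g n ⁻¹' {z | lam * (1 + ‖n‖) < ‖z‖}) ≤
      ENNReal.ofReal ((4 * (d.factorial * 4 ^ d) * Real.exp (-lam ^ 2 / 4))
        * (W (2 * d) n)⁻¹) := by
    intro n
    have hn := norm_nonneg n
    have hmeas : MeasurableSet {z : ℂ | lam * (1 + ‖n‖) < ‖z‖} :=
      measurableSet_lt measurable_const measurable_norm
    rw [← Measure.map_apply (hm n) hmeas, hg n]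
    refine (std_tail (by positivity)).trans (ENNReal.ofReal_le_ofReal ?_)
    have h1 : -(lam * (1 + ‖n‖)) ^ 2 / 2 ≤ -lam ^ 2 / 4 + -(1 + ‖n‖) ^ 2 / 4 := by
      have h2 : 1 ≤ lam ^ 2 := one_le_pow₀ hl
      have h3 : 1 ≤ (1 + ‖n‖) ^ 2 := one_le_pow₀ (by linarith only [hn])
      rw [mul_pow]
      nlinarith only [h2, h3]
    calc 4 * Real.exp (-(lam * (1 + ‖n‖)) ^ 2 / 2)
        ≤ 4 * Real.exp (-lam ^ 2 / 4 + -(1 + ‖n‖) ^ 2 / 4) := by (clear * - h1; gcongr)
      _ = 4 * (Real.exp (-lam ^ 2 / 4) * Real.exp (-(1 + ‖n‖) ^ 2 / 4)) := by rw [Real.exp_add]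
      _ ≤ 4 * (Real.exp (-lam ^ 2 / 4) * ((d.factorial * 4 ^ d : ℝ) * (W (2 * d) n)⁻¹)) := by
          gcongr
          exact exp_le_W_inv n
      _ = _ := by ring
  refine (ENNReal.tsum_le_tsum hterm).trans (le_of_eq ?_)
  rw [← ENNReal.ofReal_tsum_of_nonneg (fun n => mul_nonneg (by positivity)
    (inv_pos.2 (W_pos n)).le) ((summable_W_inv d).mul_left _), tsum_mul_left]
  congr 1
  ring

end Vale.Agent.P139
end
end

section

section

open Set Metric Filter Topology MeasureTheory ProbabilityTheory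
open scoped NNReal ENNReal ComplexConjugate

namespace Vale.Agent.P139

open A A.WA

variable {d : ℕ}

/-- Deterministic lifespan bound on the event that all `|g_n| ≤ lam (1 + |n|)`. -/
theorem det_datum {m : ℕ} (hm : 1 ≤ m) (k : ℕ) :
    ∃ B : ℝ, 1 ≤ B ∧ ∀ (γ : Lat d → ℂ) (lam α T : ℝ), 1 ≤ lam → ((k + 1 + 2 * d : ℕ) : ℝ) ≤ α →
      (∀ n, ‖γ n‖ ≤ lam * (1 + ‖n‖)) → 1 ≤ T →
      B * lam ^ (5 * m + 1) * T * (2 : ℝ) ^ (-α / 2) ≤ 1 →
      ∃ u : ℝ → Lat d → ℂ,
        u 0 = (fun n => γ n * ((Real.sqrt (1 + sqNorm n) ^ (-α) : ℝ) : ℂ)) ∧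
        IsSolution d (2 * m + 1) k T u := by
  set S0 : ℝ := ∑' n : Lat d, (W (2 * d) n)⁻¹ with hS0
  have hS0' : 0 ≤ S0 := tsum_nonneg fun n => (inv_pos.2 (W_pos n)).le
  set B1 : ℝ := (2 : ℝ) ^ (k + 1 + 2 * d) * S0 + 1 with hB1
  have hB1' : 1 ≤ B1 := by
    have : 0 ≤ (2 : ℝ) ^ (k + 1 + 2 * d) * S0 := by (clear * - hS0'; positivity)
    linarith only [this]
  set B : ℝ := (1 + C2 m) * 16 * (1 + m) * 2 ^ (5 * m) * B1 with hB
  have hC2 := C2_nonneg m
  have hB' : 1 ≤ B := by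
    rw [hB]
    have h1 : (1 : ℝ) ≤ 1 + C2 m := by linarith only [hC2]
    have h2 : (1 : ℝ) ≤ 1 + (m : ℝ) := by
      have : (0 : ℝ) ≤ m := Nat.cast_nonneg m
      linarith only []
    have h3 : (1 : ℝ) ≤ 2 ^ (5 * m) := one_le_pow₀ (by norm_num)
    calc (1 : ℝ) = 1 * 1 * 1 * 1 * 1 := by norm_num
      _ ≤ (1 + C2 m) * 16 * (1 + m) * 2 ^ (5 * m) * B1 := by gcongr; norm_num
  refine ⟨B, hB', ?_⟩
  intro γ lam α T hl hα hγ hT hBT
  have hT0 : 0 ≤ T := by linarith only [hT]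
  have hl0 : 0 ≤ lam := by linarith only [hl]
  set a₀ : Lat d → ℂ := fun n => γ n * ((Real.sqrt (1 + sqNorm n) ^ (-α) : ℝ) : ℂ) with ha₀
  have hnorm : ∀ n, ‖a₀ n‖ = ‖γ n‖ * Real.sqrt (1 + sqNorm n) ^ (-α) := fun n => by
    simp only [ha₀, norm_mul, Complex.norm_real]
    rw [Real.norm_of_nonneg (Real.rpow_nonneg (Real.sqrt_nonneg _) _)]
  have hbound : ∀ n, n ≠ 0 → W k n * ‖a₀ n‖ ≤
      lam * ((2 : ℝ) ^ (k + 1 + 2 * d) * (2 : ℝ) ^ (-α / 2)) * (W (2 * d) n)⁻¹ := by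
    intro n hn
    rw [hnorm]
    have hJ : 0 ≤ Real.sqrt (1 + sqNorm n) ^ (-α) := Real.rpow_nonneg (Real.sqrt_nonneg _) _
    calc W k n * (‖γ n‖ * Real.sqrt (1 + sqNorm n) ^ (-α))
        ≤ W k n * ((lam * (1 + ‖n‖)) * Real.sqrt (1 + sqNorm n) ^ (-α)) := by
          have := (W_pos (k := k) n).le
          have := hγ n
          (clear m hm S0 hS0 hS0' B1 hB1 hB1' B hB hC2 hB' T hl hα hT hBT hT0 hl0 a₀ ha₀ hnorm hn hJ; gcongr)
      _ = lam * (W (k + 1) n * Real.sqrt (1 + sqNorm n) ^ (-α)) := by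
          unfold W
          rw [pow_succ]
          ring
      _ ≤ lam * ((2 : ℝ) ^ (k + 1 + 2 * d) * (2 : ℝ) ^ (-α / 2) * (W (2 * d) n)⁻¹) := by
          exact mul_le_mul_of_nonneg_left (weight_datum_le hα hn) hl0
      _ = _ := by ring
  have hsum1 : Summable fun n => W k n * ‖(if n = 0 then 0 else a₀ n : ℂ)‖ := by
    refine Summable.of_nonneg_of_le (fun n => mul_nonneg (W_pos n).le (norm_nonneg _)) (fun n => ?_)
      ((summable_W_inv d).mul_left (lam * ((2 : ℝ) ^ (k + 1 + 2 * d) * (2 : ℝ) ^ (-α / 2))))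
    by_cases hn : n = 0
    · simp only [hn, if_true, norm_zero, mul_zero]
      exact mul_nonneg (by positivity) (inv_pos.2 (W_pos _)).le
    · simp only [hn, if_false]
      exact hbound n hn
  let b : WA d k := mk _ hsum1
  have hb : ∀ n, coef b n = if n = 0 then 0 else a₀ n := fun n => coef_mk _ hsum1 n
  set ε : ℝ := lam * B1 * (2 : ℝ) ^ (-α / 2) with hε
  have hεpos : 0 < ε := by (clear * - hl hS0'; positivity)
  have hbn : ‖b‖ ≤ ε := by
    rw [norm_eq]
    have h3 : ∀ n, W k n * ‖coef b n‖ ≤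
        lam * ((2 : ℝ) ^ (k + 1 + 2 * d) * (2 : ℝ) ^ (-α / 2)) * (W (2 * d) n)⁻¹ := by
      intro n
      rw [hb]
      by_cases hn : n = 0
      · simp only [hn, if_true, norm_zero, mul_zero]
        exact mul_nonneg (by positivity) (inv_pos.2 (W_pos _)).le
      · simp only [hn, if_false]
        exact hbound n hn
    refine (b.summable.tsum_le_tsum h3 ((summable_W_inv d).mul_left _)).trans ?_
    rw [tsum_mul_left, ← hS0, hε]
    have : (2 : ℝ) ^ (k + 1 + 2 * d) * S0 ≤ B1 := by rw [hB1]; linarith only []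
    calc lam * ((2 : ℝ) ^ (k + 1 + 2 * d) * (2 : ℝ) ^ (-α / 2)) * S0
        = lam * ((2 : ℝ) ^ (k + 1 + 2 * d) * S0) * (2 : ℝ) ^ (-α / 2) := by ring
      _ ≤ lam * B1 * (2 : ℝ) ^ (-α / 2) := by (clear * - this hl; gcongr)
  have hz0 : a₀ 0 = γ 0 := by simp [ha₀, sqNorm_zero]
  let a : WA d k := γ 0 • 1 + b
  have hcoef : coef a = a₀ := by
    funext n
    simp only [a, coef_add, coef_smul, coef_one, hb]
    by_cases hn : n = 0
    · subst hn; simp [hz0]
    · simp [hn]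
  have ha0 : coef a 0 = γ 0 := by rw [hcoef, hz0]
  have hab : a - coef a 0 • (1 : WA d k) = b := by rw [ha0]; simp only [add_sub_cancel_left, a]
  have hR : ‖coef a 0‖ ≤ lam := by
    rw [ha0]
    have := hγ 0
    simpa using this
  -- the smallness conditions
  have hl2 : lam + 1 ≤ 2 * lam := by linarith only [hl]
  have h2α : 0 < (2 : ℝ) ^ (-α / 2) := by positivity
  have hlp : ∀ j : ℕ, 1 ≤ lam ^ j := fun j => one_le_pow₀ hl
  have hηle : 16 * (1 + (m : ℝ)) * (lam + 1) ^ m * ε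
      ≤ 16 * (1 + (m : ℝ)) * 2 ^ m * B1 * lam ^ (m + 1) * (2 : ℝ) ^ (-α / 2) := by
    have : (lam + 1) ^ m ≤ (2 * lam) ^ m := by (clear * - hl hl2; gcongr)
    calc _ ≤ 16 * (1 + (m : ℝ)) * (2 * lam) ^ m * ε := by (clear * - this hm hl hS0'; gcongr)
      _ = _ := by rw [hε, mul_pow]; ring
  have hm0 : (0 : ℝ) ≤ m := Nat.cast_nonneg m
  have hη1 : 16 * (1 + (m : ℝ)) * (lam + 1) ^ m * ε ≤ 1 := by
    refine hηle.trans (le_trans ?_ hBT)
    have h3 : (2 : ℝ) ^ m ≤ 2 ^ (5 * m) := pow_le_pow_right₀ (by norm_num) (by omega)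
    have h4 : lam ^ (m + 1) ≤ lam ^ (5 * m + 1) := pow_le_pow_right₀ hl (by omega)
    calc 16 * (1 + (m : ℝ)) * 2 ^ m * B1 * lam ^ (m + 1) * (2 : ℝ) ^ (-α / 2)
        = (1 * 16 * (1 + (m : ℝ)) * 2 ^ m * B1) * lam ^ (m + 1) * 1 * (2 : ℝ) ^ (-α / 2) := by ring
      _ ≤ ((1 + C2 m) * 16 * (1 + m) * 2 ^ (5 * m) * B1) * lam ^ (5 * m + 1) * T
          * (2 : ℝ) ^ (-α / 2) := by
        gcongr
        linarith only [hC2]
  have hTη : T * (C2 m * (lam + 1) ^ (4 * m) * (16 * (1 + (m : ℝ)) * (lam + 1) ^ m * ε)) ≤ 1 := by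
    refine le_trans ?_ hBT
    calc T * (C2 m * (lam + 1) ^ (4 * m) * (16 * (1 + (m : ℝ)) * (lam + 1) ^ m * ε))
        ≤ T * ((1 + C2 m) * (2 * lam) ^ (4 * m) * (16 * (1 + (m : ℝ)) * 2 ^ m * B1
          * lam ^ (m + 1) * (2 : ℝ) ^ (-α / 2))) := by
          gcongr
          linarith only []
      _ = _ := by
          rw [hB, mul_pow]
          have e1 : (2 : ℝ) ^ (5 * m) = 2 ^ (4 * m) * 2 ^ m := by
            rw [← pow_add]; congr 1; ring
          have e2 : lam ^ (5 * m + 1) = lam ^ (4 * m) * lam ^ (m + 1) := by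
            rw [← pow_add]; congr 1; ring
          rw [e1, e2]
          ring
  obtain ⟨u, hu0, hu⟩ := det_main hm hl hεpos rfl hη1 hT0 hTη a hR (by rw [hab]; exact hbn)
  exact ⟨fun t => coef (u t), by simp only [hu0, hcoef], hu⟩

theorem lifespan_ge {p k : ℕ} {T : ℝ} (hT : 0 ≤ T) {a : Lat d → ℂ}
    (h : ∃ u : ℝ → Lat d → ℂ, u 0 = a ∧ IsSolution d p k T u) :
    ENNReal.ofReal T ≤ lifespan d p k a := by
  obtain ⟨u, hu0, hu⟩ := h
  unfold lifespan
  refine le_iSup₂_of_le (NNReal.mk _ hT) ⟨u, hu, hu0⟩ ?_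
  rw [ENNReal.ofReal, Real.toNNReal_of_nonneg hT]

/-- The probability that the lifespan is shorter than `2^(θα)` is doubly exponentially small. -/
theorem tail_main {p : ℕ} (hp : Odd p) (hp3 : 3 ≤ p) (k : ℕ) {θ : ℝ} (hθ : θ < 1 / 2) :
    ∃ κ : ℝ, 0 < κ ∧ ∃ α₁ : ℝ, ∀ {Ω : Type} [MeasurableSpace Ω] (P : Measure Ω)
      (g : Lat d → Ω → ℂ), (∀ n, Measurable (g n)) → (∀ n, P.map (g n) = stdComplexGaussian) →
      ∀ α : ℝ, α₁ ≤ α →
        P {ω | lifespan d p k (datum g α ω) < ENNReal.ofReal ((2 : ℝ) ^ (θ * α))}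
          ≤ ENNReal.ofReal (Real.exp (-(2 : ℝ) ^ (κ * α))) := by
  obtain ⟨m, rfl⟩ := hp
  have hm : 1 ≤ m := by (clear * - hp3; omega)
  obtain ⟨B, hB, H⟩ := det_datum (d := d) hm k
  -- reduce to nonnegative exponents
  set θ' : ℝ := max θ 0 with hθ'
  have hθ'1 : θ' < 1 / 2 := max_lt hθ (by norm_num)
  have hθ'0 : 0 ≤ θ' := le_max_right _ _
  have hθθ' : θ ≤ θ' := le_max_left _ _
  set κ : ℝ := (1 / 2 - θ') / (2 * (5 * m + 1)) with hκ
  have hκ0 : 0 < κ := by
    rw [hκ]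
    apply div_pos (by linarith only [hθ'1]) (by positivity)
  set C : ℝ := 4 * (d.factorial * 4 ^ d) * ∑' n : Lat d, (W (2 * d) n)⁻¹ with hC
  have hC0 : 0 ≤ C := by
    rw [hC]
    refine mul_nonneg (by positivity) (tsum_nonneg fun n => (inv_pos.2 (W_pos n)).le)
  -- asymptotics
  have hlim1 : Tendsto (fun α : ℝ => B * (2 : ℝ) ^ (-((1 / 2 - θ') / 2 * α))) atTop (𝓝 0) := by
    have h1 : Tendsto (fun α : ℝ => -((1 / 2 - θ') / 2 * α)) atTop atBot := by
      apply tendsto_neg_atTop_atBot.comp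
      exact tendsto_id.const_mul_atTop (by linarith only [hθ'1])
    have h2 := (tendsto_rpow_atBot_of_base_gt_one 2 (by norm_num)).comp h1
    simpa only [one_div, Function.comp_apply, mul_zero] using h2.const_mul B
  have hlim2 : Tendsto (fun α : ℝ => (2 : ℝ) ^ (κ * α)) atTop atTop := by
    have h1 : Tendsto (fun α : ℝ => κ * α) atTop atTop := tendsto_id.const_mul_atTop hκ0
    exact (tendsto_rpow_atTop_of_base_gt_one 2 (by norm_num)).comp h1
  have hev1 : ∀ᶠ α : ℝ in atTop, B * (2 : ℝ) ^ (-((1 / 2 - θ') / 2 * α)) ≤ 1 :=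
    hlim1.eventually (ge_mem_nhds (by norm_num : (0 : ℝ) < 1))
  have hev2 : ∀ᶠ α : ℝ in atTop, max 8 (C + 1) ≤ (2 : ℝ) ^ (κ * α) :=
    hlim2.eventually_ge_atTop _
  have hev3 : ∀ᶠ α : ℝ in atTop, max ((k + 1 + 2 * d : ℕ) : ℝ) 0 ≤ α :=
    eventually_ge_atTop _
  obtain ⟨α₁, hα₁⟩ := (hev1.and (hev2.and hev3)).exists_forall_of_atTop
  refine ⟨κ, hκ0, α₁, ?_⟩
  intro Ω _ P g hgm hg α hα
  obtain ⟨h1, h2, h3⟩ := hα₁ α hα
  have hα0 : 0 ≤ α := (le_max_right _ _).trans h3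
  have hαk : ((k + 1 + 2 * d : ℕ) : ℝ) ≤ α := (le_max_left _ _).trans h3
  set lam : ℝ := (2 : ℝ) ^ (κ * α) with hlam
  have h8 : 8 ≤ lam := (le_max_left _ _).trans h2
  have hC1 : C + 1 ≤ lam := (le_max_right _ _).trans h2
  have hlam1 : 1 ≤ lam := by linarith only [h8]
  have hsub : {ω | lifespan d (2 * m + 1) k (datum g α ω) < ENNReal.ofReal ((2 : ℝ) ^ (θ * α))}
      ⊆ {ω | ∃ n, lam * (1 + ‖n‖) < ‖g n ω‖} := by
    intro ω hω
    by_contra hcon
    simp only [mem_ofPred_eq, not_exists, not_lt] at hcon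
    have hT1 : 1 ≤ (2 : ℝ) ^ (θ' * α) := Real.one_le_rpow (by norm_num) (by (clear * - hα0; positivity))
    have hkey : B * lam ^ (5 * m + 1) * (2 : ℝ) ^ (θ' * α) * (2 : ℝ) ^ (-α / 2) ≤ 1 := by
      have e1 : lam ^ (5 * m + 1) = (2 : ℝ) ^ ((1 / 2 - θ') / 2 * α) := by
        rw [hlam, ← Real.rpow_natCast, ← Real.rpow_mul (by norm_num)]
        congr 1
        rw [hκ]
        push_cast
        (clear * - hm; field_simp)
      have e2 : (2 : ℝ) ^ ((1 / 2 - θ') / 2 * α) * (2 : ℝ) ^ (θ' * α) * (2 : ℝ) ^ (-α / 2)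
          = (2 : ℝ) ^ (-((1 / 2 - θ') / 2 * α)) := by
        rw [← Real.rpow_add (by norm_num), ← Real.rpow_add (by norm_num)]
        congr 1
        ring
      calc B * lam ^ (5 * m + 1) * (2 : ℝ) ^ (θ' * α) * (2 : ℝ) ^ (-α / 2)
          = B * ((2 : ℝ) ^ ((1 / 2 - θ') / 2 * α) * (2 : ℝ) ^ (θ' * α) * (2 : ℝ) ^ (-α / 2)) := by
            rw [e1]; ring
        _ ≤ 1 := by rw [e2]; exact h1
    have h4 := lifespan_ge (d := d) (p := 2 * m + 1) (k := k) (by positivity)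
      (H (fun n => g n ω) lam α ((2 : ℝ) ^ (θ' * α)) hlam1 hαk hcon hT1 hkey)
    have h5 : ENNReal.ofReal ((2 : ℝ) ^ (θ * α)) ≤ ENNReal.ofReal ((2 : ℝ) ^ (θ' * α)) := by
      apply ENNReal.ofReal_le_ofReal
      apply Real.rpow_le_rpow_of_exponent_le (by norm_num)
      (clear * - hθθ' hα0; gcongr)
    exact absurd (h5.trans h4) (not_le.mpr hω)
  refine (measure_mono hsub).trans ((union_bound P hgm hg hlam1).trans ?_)
  apply ENNReal.ofReal_le_ofReal
  rw [← hC]
  have h6 : C ≤ Real.exp lam := by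
    have := Real.add_one_le_exp lam
    linarith only [hC1, this]
  calc C * Real.exp (-lam ^ 2 / 4) ≤ Real.exp lam * Real.exp (-lam ^ 2 / 4) := by (clear * - h6; gcongr)
    _ = Real.exp (lam + -lam ^ 2 / 4) := by rw [Real.exp_add]
    _ ≤ Real.exp (-lam) := by
      apply Real.exp_le_exp.mpr
      nlinarith only [h8]

end Vale.Agent.P139
end
end
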